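import Crest.Agent.R056E.Main

/-!
Row 56, short proof (vertex exposure). Part 6: interface and numerics.
-/

set_option autoImplicit false
set_option linter.unusedSectionVars false
set_option linter.unusedVariables false

namespace Crest.Agent.R056E

open Finset Crest.FinProb Crest.Agent.R056V Crest.CombinatoricsR.HypergraphCube

variable {n r : ℕ} {p : ℝ}

/-- Real-valued version of a Boolean function. -/
def toR (f : (HyperedgeSlot n r → Bool) → Bool) : (HyperedgeSlot n r → Bool) → ℝ :=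
  fun x => if f x then 1 else 0

theorem toR_01 (f : (HyperedgeSlot n r → Bool) → Bool) (x : HyperedgeSlot n r → Bool) :
    toR f x = 0 ∨ toR f x = 1 := by
  unfold toR
  split_ifs
  · exact Or.inr rfl
  · exact Or.inl rfl

theorem toR_relabel {f : (HyperedgeSlot n r → Bool) → Bool} (hf : IsSymmetric f)
    (σ : Equiv.Perm (Fin n)) (x : HyperedgeSlot n r → Bool) : toR f (relabel σ x) = toR f x := by
  unfold toR
  rw [hf σ x]

theorem prob_eq_Ex {E : Type*} [Fintype E] [DecidableEq E] (p : ℝ) (A : Set (E → Bool))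
    [DecidablePred (· ∈ A)] :
    bernoulliProb p A = Ex p (fun x => if x ∈ A then 1 else 0) := by
  unfold bernoulliProb Ex
  simp only [mul_ite, mul_one, mul_zero]
  rw [Finset.sum_filter]
  refine Finset.sum_congr rfl fun ω _ => ?_
  by_cases h : ω ∈ A <;> simp [h]

theorem probTrue_eq (p : ℝ) (f : (HyperedgeSlot n r → Bool) → Bool) :
    probTrue p f = Ex p (toR f) := by
  classical
  unfold probTrue
  rw [prob_eq_Ex]
  rfl

theorem VarF_eq (hp0 : 0 < p) (hp1 : p < 1) (f : (HyperedgeSlot n r → Bool) → Bool) :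
    VarF p (toR f) = probTrue p f * (1 - probTrue p f) := by
  have h := parseval hp0 hp1 (toR f)
  have hsq : Ex p (fun x => toR f x ^ 2) = Ex p (toR f) := by
    refine Ex_congr p fun x => ?_
    rcases toR_01 f x with h | h <;> rw [h] <;> norm_num
  have h0 : fc p (toR f) ∅ = Ex p (toR f) := by
    unfold fc
    refine Ex_congr p fun x => ?_
    simp [chi]
  have h2 : ∑ S : Finset (HyperedgeSlot n r), fc p (toR f) S ^ 2 =
      fc p (toR f) ∅ ^ 2 + VarF p (toR f) := by
    unfold VarF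
    rw [← Finset.add_sum_erase _ _ (Finset.mem_univ (∅ : Finset (HyperedgeSlot n r)))]
    congr 1
    rw [← Finset.sum_erase (a := (∅ : Finset (HyperedgeSlot n r))) univ (by simp)]
    refine Finset.sum_congr rfl fun S hS => ?_
    rw [if_pos (Finset.nonempty_iff_ne_empty.mpr (Finset.ne_of_mem_erase hS))]
  rw [h2, hsq, h0] at h
  rw [probTrue_eq]
  linarith [h, sq (Ex p (toR f))]

theorem pivotal_eq (p : ℝ) (f : (HyperedgeSlot n r → Bool) → Bool) (e : HyperedgeSlot n r) :
    p * (1 - p) * pivotalInfluence p f e = Ex p (Ve p e (toR f)) := by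
  classical
  unfold pivotalInfluence
  rw [prob_eq_Ex, ← Ex_mul_left]
  refine Ex_congr p fun x => ?_
  unfold Ve toR
  show p * (1 - p) * (if f (Function.update x e true) ≠ f (Function.update x e false) then 1 else 0)
    = _
  cases f (Function.update x e true) <;> cases f (Function.update x e false) <;> simp

theorem EF_eq (hp0 : 0 < p) (hp1 : p < 1) (f : (HyperedgeSlot n r → Bool) → Bool) :
    EF p (toR f) = p * (1 - p) * totalInfluence p f := by
  unfold totalInfluence
  rw [Finset.mul_sum, Finset.sum_congr rfl (fun e _ => pivotal_eq p f e)]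
  simp only [Ex_Ve hp0 hp1]
  rw [Finset.sum_comm]
  unfold EF
  refine Finset.sum_congr rfl fun S _ => ?_
  rw [← Finset.sum_filter, Finset.sum_const, nsmul_eq_mul, mul_comm]
  congr 2
  congr 1
  ext e
  simp

theorem VarF_nonneg (F : (HyperedgeSlot n r → Bool) → ℝ) : 0 ≤ VarF p F :=
  Finset.sum_nonneg fun S _ => by split_ifs <;> positivity

theorem EF_nonneg (F : (HyperedgeSlot n r → Bool) → ℝ) : 0 ≤ EF p F :=
  Finset.sum_nonneg fun S _ => by positivity

theorem VarF_le_EF (F : (HyperedgeSlot n r → Bool) → ℝ) : VarF p F ≤ EF p F := by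
  unfold VarF EF
  refine Finset.sum_le_sum fun S _ => ?_
  split_ifs with h
  · have h1 : (1 : ℝ) ≤ (S.card : ℝ) := by exact_mod_cast Finset.card_pos.mpr h
    nlinarith [sq_nonneg (fc p F S)]
  · positivity

/-- `128 L^6 ≤ e^{L/4}` for `L^2 ≥ 2^19`. -/
theorem exp_bound {L : ℝ} (hL : 0 < L) (h : (2 : ℝ) ^ 19 ≤ L ^ 2) :
    128 * L ^ 6 ≤ Real.exp (L / 4) := by
  have h1 : (L / 32) ^ 2 / 2 ≤ Real.exp (L / 32) := by
    have := Real.quadratic_le_exp_of_nonneg (x := L / 32) (by positivity)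
    have h2 : 0 < L / 32 := by positivity
    linarith
  have h2 : ((L / 32) ^ 2 / 2) ^ 8 ≤ Real.exp (L / 32) ^ 8 :=
    pow_le_pow_left₀ (by positivity) h1 8
  have h3 : Real.exp (L / 32) ^ 8 = Real.exp (L / 4) := by
    rw [← Real.exp_nat_mul]
    congr 1
    push_cast
    ring
  rw [h3] at h2
  refine le_trans ?_ h2
  have h4 : ((L / 32) ^ 2 / 2) ^ 8 = L ^ 6 * (L ^ 2) ^ 5 / 2 ^ 88 := by ring
  rw [h4]
  have h5 : ((2 : ℝ) ^ 19) ^ 5 ≤ (L ^ 2) ^ 5 := pow_le_pow_left₀ (by positivity) h 5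
  rw [le_div_iff₀ (by positivity)]
  have h6 : (0 : ℝ) < L ^ 6 := by positivity
  nlinarith

/-- The influence inequality with explicit constant. -/
theorem influence_ineq (hr : 2 ≤ r) (hn : 2 ≤ n) (hp0 : 0 < p) (hp1 : p < 1)
    (f : (HyperedgeSlot n r → Bool) → Bool) (hf : IsSymmetric f) :
    probTrue p f * (1 - probTrue p f) ≤
      (2 ^ 15 * (r : ℝ) ^ 2) / Real.log n ^ ((r : ℝ) / ((r : ℝ) - 1)) * totalInfluence p f := by
  set L := Real.log n with hLdef
  set q := p * (1 - p) with hq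
  set V := VarF p (toR f) with hV
  set E := EF p (toR f) with hE
  set I := totalInfluence p f with hI
  clear_value L V E I
  have hr2 : (2 : ℝ) ≤ r := by exact_mod_cast hr
  have hr1 : (0 : ℝ) < (r : ℝ) - 1 := by linarith
  have hq0 : 0 < q := mul_pos hp0 (by linarith)
  have hq4 : q ≤ 1 / 4 := by
    rw [hq]; nlinarith [sq_nonneg (p - 1 / 2)]
  have hL : 0 < L := by rw [hLdef]; exact Real.log_pos (by exact_mod_cast (by omega : 1 < n))
  have hVar : V = probTrue p f * (1 - probTrue p f) := by rw [hV]; exact VarF_eq hp0 hp1 f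
  have hEI : E = q * I := by rw [hE, hq, hI]; exact EF_eq hp0 hp1 f
  have hV0 : 0 ≤ V := by rw [hV]; exact VarF_nonneg _
  have hE0 : 0 ≤ E := by rw [hE]; exact EF_nonneg _
  have hVE : V ≤ E := by rw [hV, hE]; exact VarF_le_EF _
  clear_value q
  set C : ℝ := 2 ^ 15 * (r : ℝ) ^ 2 with hC
  have hr4 : (2 : ℝ) ^ 2 ≤ (r : ℝ) ^ 2 := pow_le_pow_left₀ (by norm_num) hr2 2
  have hC17 : (2 : ℝ) ^ 17 ≤ C := by rw [hC]; linarith
  have hC0 : 0 < C := by linarith [show (0:ℝ) < 2 ^ 17 by norm_num]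
  clear_value C
  set s := (r : ℝ) / ((r : ℝ) - 1) with hs
  set u := 1 / ((r : ℝ) - 1) with hu
  have hu0 : 0 < u := by rw [hu]; positivity
  have hu1 : u ≤ 1 := by
    rw [hu, div_le_one hr1]; linarith
  have hsu : s = 1 + u := by
    rw [hs, hu]; field_simp; ring
  set W := L ^ s with hW
  have hW0 : 0 < W := Real.rpow_pos_of_pos hL s
  have hWu : W = L * L ^ u := by
    rw [hW, hsu, Real.rpow_add hL, Real.rpow_one]
  clear_value W s u
  rw [← hVar]
  by_contra hcon
  push Not at hcon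
  -- `E < q W V / C`
  have hEV : E * C < q * W * V := by
    have h1 : C / W * I * (q * W) < V * (q * W) :=
      mul_lt_mul_of_pos_right hcon (by positivity)
    have h2 : C / W * I * (q * W) = E * C := by
      rw [hEI]; field_simp
    rw [h2] at h1
    linarith
  have hVpos : 0 < V := by
    rcases hV0.eq_or_lt with h | h
    · rw [← h] at hEV
      have : 0 ≤ E * C := by positivity
      linarith
    · exact h
  have hEpos : 0 < E := hVpos.trans_le hVE
  have hCW : C < q * W := by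
    have h1 : V * C ≤ E * C := mul_le_mul_of_nonneg_right hVE hC0.le
    have h2 : V * C < V * (q * W) := by linarith
    exact lt_of_mul_lt_mul_left h2 hVpos.le
  have hW19 : (2 : ℝ) ^ 19 ≤ W := by
    have := mul_le_mul_of_nonneg_right hq4 hW0.le
    linarith
  have hL1 : 1 < L := by
    by_contra hcon2
    push Not at hcon2
    have hs0 : 0 ≤ s := by rw [hsu]; linarith
    have : W ≤ 1 := by rw [hW]; exact Real.rpow_le_one hL.le hcon2 hs0
    norm_num at hW19
    linarith
  have hWL : W ≤ L ^ 2 := by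
    rw [hWu, sq]
    apply mul_le_mul_of_nonneg_left _ hL.le
    calc L ^ u ≤ L ^ (1 : ℝ) := Real.rpow_le_rpow_of_exponent_le hL1.le hu1
      _ = L := Real.rpow_one L
  have hL19 : (2 : ℝ) ^ 19 ≤ L ^ 2 := hW19.trans hWL
  -- `r E ≤ L² V`
  have hrE : r * E ≤ L ^ 2 * V := by
    have h1 : E * C ≤ q * L ^ 2 * V := by
      have : q * W * V ≤ q * L ^ 2 * V := by gcongr
      linarith
    have h2 : (r : ℝ) * q ≤ C := by
      rw [hC]
      have e1 : (r : ℝ) * q ≤ r * r := mul_le_mul_of_nonneg_left (by linarith) (by linarith)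
      have e2 : (0 : ℝ) ≤ (r : ℝ) ^ 2 := sq_nonneg _
      have e3 : (r : ℝ) * r = (r : ℝ) ^ 2 := (sq _).symm
      linarith
    have h3 : r * E * C ≤ (r * q) * (L ^ 2 * V) := by
      have := mul_le_mul_of_nonneg_left h1 (by positivity : (0:ℝ) ≤ r)
      have e1 : r * E * C = r * (E * C) := by ring
      have e2 : (r * q) * (L ^ 2 * V) = r * (q * L ^ 2 * V) := by ring
      rw [e1, e2]
      exact this
    have h4 : (r * q) * (L ^ 2 * V) ≤ C * (L ^ 2 * V) :=
      mul_le_mul_of_nonneg_right h2 (by positivity)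
    have h5 : r * E * C ≤ (L ^ 2 * V) * C := by linarith
    exact le_of_mul_le_mul_right h5 hC0
  -- choice of `M`, `τ`
  have hn0 : (0 : ℝ) < n := by exact_mod_cast (by omega : 0 < n)
  have hexp : Real.exp L = n := by rw [hLdef]; exact Real.exp_log hn0
  have hEB := exp_bound hL hL19
  set X : ℝ := (n : ℝ) / (4 * L ^ 2) with hX
  clear_value X
  have hXbig : 32 * L ^ 4 * Real.exp (3 * L / 4) ≤ X := by
    rw [hX, le_div_iff₀ (by positivity), ← hexp]
    have h1 : Real.exp L = Real.exp (L / 4) * Real.exp (3 * L / 4) := by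
      rw [← Real.exp_add]; congr 1; ring
    rw [h1]
    have h2 : 0 < Real.exp (3 * L / 4) := Real.exp_pos _
    have h3 := mul_le_mul_of_nonneg_right hEB h2.le
    refine le_trans (le_of_eq ?_) h3
    ring
  obtain ⟨M, hM1, hMX, hXM⟩ : ∃ M : ℕ, 1 ≤ M ∧ (M : ℝ) ≤ X ∧ X ≤ 2 * M := by
    have hX1 : 1 ≤ X := by
      have h1 : (1:ℝ) ≤ Real.exp (3 * L / 4) := Real.one_le_exp (by positivity)
      have h2 : (1:ℝ) ≤ L ^ 4 := one_le_pow₀ hL1.le
      have h3 : (1:ℝ) ≤ L ^ 4 * Real.exp (3 * L / 4) := one_le_mul_of_one_le_of_one_le h2 h1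
      linarith
    refine ⟨⌊X⌋₊, ?_, Nat.floor_le (by linarith), ?_⟩
    · exact Nat.le_floor (by exact_mod_cast hX1)
    · have h1 := Nat.lt_floor_add_one X
      have h2 : (1 : ℝ) ≤ (⌊X⌋₊ : ℝ) := by
        exact_mod_cast Nat.le_floor (by exact_mod_cast hX1)
      linarith
  have hMn : M ≤ n := by
    have h1 : X ≤ n := by
      rw [hX, div_le_iff₀ (by positivity)]
      apply le_mul_of_one_le_right hn0.le
      have : (1:ℝ) ≤ L ^ 2 := one_le_pow₀ hL1.le
      linarith
    exact_mod_cast hMX.trans h1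
  set τ : ℝ := 1 / (8 * L ^ 2) with hτdef
  have hτ : 0 < τ := by positivity
  clear_value τ
  have hM0 : (0 : ℝ) < M := by exact_mod_cast hM1
  -- `4 M τ² ≥ e^{3L/4}`
  have hΛ' : Real.exp (3 * L / 4) ≤ 4 * (M : ℝ) * τ ^ 2 := by
    have h1 : 4 * (M : ℝ) * τ ^ 2 = M / (16 * L ^ 4) := by
      rw [hτdef]; field_simp; ring
    rw [h1, le_div_iff₀ (by positivity)]
    linarith
  have hΛ1 : 1 ≤ 4 * (M : ℝ) * τ ^ 2 := (Real.one_le_exp (by positivity)).trans hΛ'
  have hΛ : 3 * L / 4 ≤ Real.log (4 * (M : ℝ) * τ ^ 2) := by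
    rw [Real.le_log_iff_exp_le (by positivity)]
    exact hΛ'
  have hhalf : ((M : ℝ) / n + 2 * τ) * (r * E) ≤ V / 2 := by
    have h1 : (M : ℝ) / n ≤ 1 / (4 * L ^ 2) := by
      rw [div_le_iff₀ hn0]
      refine hMX.trans (le_of_eq ?_)
      rw [hX]; ring
    have h2 : 2 * τ = 1 / (4 * L ^ 2) := by rw [hτdef]; field_simp; norm_num
    have h3 : (M : ℝ) / n + 2 * τ ≤ 1 / (2 * L ^ 2) := by
      rw [h2]
      have : 1 / (2 * L ^ 2) = 1 / (4 * L ^ 2) + 1 / (4 * L ^ 2) := by field_simp; norm_num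
      linarith
    calc ((M : ℝ) / n + 2 * τ) * (r * E) ≤ 1 / (2 * L ^ 2) * (L ^ 2 * V) := by
          apply mul_le_mul h3 hrE (by positivity) (by positivity)
      _ = V / 2 := by field_simp
  -- choice of `k`
  set κ := Real.sqrt q with hκ
  have hκ0 : 0 < κ := Real.sqrt_pos.mpr hq0
  have hκκ : κ ^ 2 = q := Real.sq_sqrt hq0.le
  clear_value κ
  have hκ1 : κ ≤ 1 := by
    apply le_of_sq_le_sq _ zero_le_one
    rw [hκκ]; linarith
  set k := (L * κ / (32 * r)) ^ u with hk
  have hbase : 0 < L * κ / (32 * r) := by positivity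
  have hk0 : 0 < k := Real.rpow_pos_of_pos hbase u
  have hkr : k ^ (r - 1) = L * κ / (32 * r) := by
    rw [hk, ← Real.rpow_natCast, ← Real.rpow_mul hbase.le]
    have : u * ((r - 1 : ℕ) : ℝ) = 1 := by
      rw [Nat.cast_sub (by omega : 1 ≤ r), hu]
      push_cast
      field_simp
    rw [this, Real.rpow_one]
  clear_value k
  have hWk : W * κ ≤ 32 * r * L * k := by
    -- `L^u ≤ (32 r / κ) k`
    have h1 : L ^ u = k * (32 * r / κ) ^ u := by
      rw [hk, ← Real.mul_rpow hbase.le (by positivity)]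
      congr 1
      field_simp
    have h2 : (32 * r / κ) ^ u ≤ 32 * r / κ := by
      have h3 : 1 ≤ 32 * r / κ := by
        rw [le_div_iff₀ hκ0]; linarith
      calc (32 * r / κ) ^ u ≤ (32 * r / κ) ^ (1 : ℝ) := Real.rpow_le_rpow_of_exponent_le h3 hu1
        _ = _ := Real.rpow_one _
    rw [hWu, h1]
    have h4 : k * (32 * r / κ) ^ u ≤ k * (32 * r / κ) := mul_le_mul_of_nonneg_left h2 hk0.le
    calc L * (k * (32 * r / κ) ^ u) * κ ≤ L * (k * (32 * r / κ)) * κ := by gcongr
      _ = 32 * r * L * k := by field_simp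
  -- main inequality
  have hmain := main_ineq hp0 hp1 (by omega : 1 ≤ r) (toR_01 f) (toR_relabel hf) hM1 hMn hτ hk0 hΛ1
  rw [← hV, ← hE, ← hq, ← hκ, hkr] at hmain
  have hleft : 3 * L / 4 * (V / 2) - V ≤
      Real.log (4 * (M : ℝ) * τ ^ 2) * (V - ((M : ℝ) / n + 2 * τ) * (r * E)) - V := by
    have h1 : V / 2 ≤ V - ((M : ℝ) / n + 2 * τ) * (r * E) := by linarith
    have h2 : 3 * L / 4 * (V / 2) ≤ Real.log (4 * (M : ℝ) * τ ^ 2) *
        (V - ((M : ℝ) / n + 2 * τ) * (r * E)) :=
      mul_le_mul hΛ h1 (by positivity) (by linarith [Real.log_nonneg hΛ1])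
    linarith
  have hright : 2 / κ * (r * (L * κ / (32 * r) * V + E / k)) ≤ L / 8 * V := by
    have h1 : 2 / κ * (r * (L * κ / (32 * r) * V + E / k)) = L / 16 * V + 2 * r * E / (κ * k) := by
      field_simp
      ring
    rw [h1]
    -- `E ≤ q W V / C`, `W κ ≤ 32 r L k`
    have h2 : 2 * r * E / (κ * k) ≤ L / 16 * V := by
      rw [div_le_iff₀ (by positivity)]
      have h3 : E * C ≤ κ * (32 * r * L * k) * V := by
        have : q * W * V = κ * (W * κ) * V := by rw [← hκκ]; ring
        have h4 : κ * (W * κ) * V ≤ κ * (32 * r * L * k) * V := by gcongr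
        linarith
      have h5 : 2 * r * E * C ≤ L / 16 * V * (κ * k) * C := by
        have h6 := mul_le_mul_of_nonneg_left h3 (by positivity : (0:ℝ) ≤ 2 * r)
        have h7 : 2 * r * (κ * (32 * r * L * k) * V) = 64 * r ^ 2 * (L * κ * k * V) := by ring
        have h8 : L / 16 * V * (κ * k) * C = 2 ^ 11 * r ^ 2 * (L * κ * k * V) := by
          rw [hC]; ring
        have h9 : 0 ≤ r ^ 2 * (L * κ * k * V) := by positivity
        have h10 : 2 * r * E * C = 2 * r * (E * C) := by ring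
        rw [h8, h10]
        rw [h7] at h6
        refine h6.trans ?_
        have h11 : 64 * r ^ 2 * (L * κ * k * V) = 64 * (r ^ 2 * (L * κ * k * V)) := by ring
        have h12 : 2 ^ 11 * r ^ 2 * (L * κ * k * V) = 2 ^ 11 * (r ^ 2 * (L * κ * k * V)) := by ring
        rw [h11, h12]
        linarith
      exact le_of_mul_le_mul_right h5 hC0
    linarith
  have hfin : 3 * L / 4 * (V / 2) - V ≤ L / 8 * V := hleft.trans (hmain.trans hright)
  have hL16 : 16 ≤ L := by
    by_contra hcon3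
    push Not at hcon3
    have : L ^ 2 < 16 ^ 2 := pow_lt_pow_left₀ hcon3 hL.le (by norm_num)
    norm_num at hL19 this
    linarith
  have hLV : 16 * V ≤ L * V := mul_le_mul_of_nonneg_right hL16 hVpos.le
  linarith

end Crest.Agent.R056E
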