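import Mathlib
import Crest.Agent.R056V.Cube

/-!
Row 56, short proof (vertex exposure). Part 1: a two-point logarithmic Sobolev inequality and its
tensorization over a finite set of coordinates.
-/

set_option autoImplicit false
set_option linter.unusedSectionVars false
set_option linter.unusedVariables false

namespace Crest.Agent.R056E

open Finset Crest.FinProb Crest.Agent.R056V

/-- `a^2 log a^2 - a^2 log m ≤ 2 a^2 (a / s - 1)` for `s = √m`. -/
theorem sq_log_le {a m : ℝ} (ha : 0 ≤ a) (hm : 0 < m) :
    a ^ 2 * Real.log (a ^ 2) - a ^ 2 * Real.log m ≤ 2 * a ^ 2 * (a / Real.sqrt m - 1) := by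
  rcases ha.eq_or_lt with h | h
  · rw [← h]; simp
  · have hs : 0 < Real.sqrt m := Real.sqrt_pos.mpr hm
    have h1 : Real.log (a ^ 2) - Real.log m = 2 * Real.log (a / Real.sqrt m) := by
      rw [Real.log_div h.ne' hs.ne', Real.log_sqrt hm.le, Real.log_pow]
      push_cast
      ring
    have h2 := Real.log_le_sub_one_of_pos (div_pos h hs)
    have h3 : a ^ 2 * Real.log (a ^ 2) - a ^ 2 * Real.log m = a ^ 2 * (2 * Real.log (a / Real.sqrt m)) := by
      rw [← h1]; ring
    rw [h3]
    have h4 : 0 ≤ a ^ 2 := sq_nonneg a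
    nlinarith

/-- Two-point logarithmic Sobolev inequality. -/
theorem two_point {p a b : ℝ} (hp0 : 0 < p) (hp1 : p < 1) (ha : 0 ≤ a) (hb : 0 ≤ b) :
    p * (a ^ 2 * Real.log (a ^ 2)) + (1 - p) * (b ^ 2 * Real.log (b ^ 2)) ≤
      (p * a ^ 2 + (1 - p) * b ^ 2) * Real.log (p * a ^ 2 + (1 - p) * b ^ 2) +
        2 * Real.sqrt (p * (1 - p)) * (a - b) ^ 2 := by
  have hq : 0 < 1 - p := by linarith
  have hpq : 0 < p * (1 - p) := mul_pos hp0 hq
  set m := p * a ^ 2 + (1 - p) * b ^ 2 with hmdef
  have hm0 : 0 ≤ m := by positivity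
  rcases hm0.eq_or_lt with h | hm
  · have ha2 : p * a ^ 2 = 0 := by nlinarith [mul_nonneg hp0.le (sq_nonneg a), mul_nonneg hq.le (sq_nonneg b)]
    have hb2 : (1 - p) * b ^ 2 = 0 := by nlinarith [mul_nonneg hp0.le (sq_nonneg a), mul_nonneg hq.le (sq_nonneg b)]
    have ha0 : a = 0 := by
      rcases mul_eq_zero.mp ha2 with h1 | h1
      · exact absurd h1 hp0.ne'
      · exact pow_eq_zero_iff (two_ne_zero) |>.mp h1
    have hb0 : b = 0 := by
      rcases mul_eq_zero.mp hb2 with h1 | h1
      · exact absurd h1 hq.ne'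
      · exact pow_eq_zero_iff (two_ne_zero) |>.mp h1
    rw [← h, ha0, hb0]
    simp
  · set s := Real.sqrt m with hs
    set κ := Real.sqrt (p * (1 - p)) with hκ
    have hs0 : 0 < s := Real.sqrt_pos.mpr hm
    have hss : s ^ 2 = m := Real.sq_sqrt hm.le
    have hκ0 : 0 < κ := Real.sqrt_pos.mpr hpq
    have hκκ : κ ^ 2 = p * (1 - p) := Real.sq_sqrt hpq.le
    have h1 := sq_log_le ha hm
    have h2 := sq_log_le hb hm
    rw [← hs] at h1 h2
    -- `κ (a + b) ≤ s`
    have h3 : κ * (a + b) ≤ s := by
      apply le_of_sq_le_sq _ hs0.le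
      rw [hss, mul_pow, hκκ, hmdef]
      nlinarith [sq_nonneg (p * a - (1 - p) * b)]
    -- `p a + q b ≤ s`
    have h4 : p * a + (1 - p) * b ≤ s := by
      apply le_of_sq_le_sq _ hs0.le
      rw [hss, hmdef]
      nlinarith [mul_nonneg hpq.le (sq_nonneg (a - b))]
    have h5 : p * (a ^ 2 * Real.log (a ^ 2)) + (1 - p) * (b ^ 2 * Real.log (b ^ 2)) - m * Real.log m
        ≤ p * (2 * a ^ 2 * (a / s - 1)) + (1 - p) * (2 * b ^ 2 * (b / s - 1)) := by
      have e1 := mul_le_mul_of_nonneg_left h1 hp0.le
      have e2 := mul_le_mul_of_nonneg_left h2 hq.le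
      have e3 : m * Real.log m = p * (a ^ 2 * Real.log m) + (1 - p) * (b ^ 2 * Real.log m) := by
        rw [hmdef]; ring
      rw [e3]
      linarith [e1, e2]
    have h6 : p * (2 * a ^ 2 * (a / s - 1)) + (1 - p) * (2 * b ^ 2 * (b / s - 1))
        = 2 / s * (p * a ^ 3 + (1 - p) * b ^ 3 - s ^ 3) := by
      have : s ^ 3 = s * (p * a ^ 2 + (1 - p) * b ^ 2) := by rw [← hmdef, ← hss]; ring
      rw [this]
      field_simp
      ring
    have h7 : p * a ^ 3 + (1 - p) * b ^ 3 - s ^ 3 ≤ κ * s * (a - b) ^ 2 := by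
      have e1 : p * a ^ 3 + (1 - p) * b ^ 3 =
          (p * a + (1 - p) * b) * s ^ 2 + κ ^ 2 * ((a - b) ^ 2 * (a + b)) := by
        rw [hss, hκκ, hmdef]; ring
      have e2 : (p * a + (1 - p) * b) * s ^ 2 ≤ s * s ^ 2 :=
        mul_le_mul_of_nonneg_right h4 (sq_nonneg s)
      have e3 : κ ^ 2 * ((a - b) ^ 2 * (a + b)) ≤ κ * s * (a - b) ^ 2 := by
        have := mul_le_mul_of_nonneg_left h3 (mul_nonneg hκ0.le (sq_nonneg (a - b)))
        nlinarith [this]
      nlinarith [e1, e2, e3]
    have h8 : 2 / s * (p * a ^ 3 + (1 - p) * b ^ 3 - s ^ 3) ≤ 2 / s * (κ * s * (a - b) ^ 2) :=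
      mul_le_mul_of_nonneg_left h7 (by positivity)
    have h9 : 2 / s * (κ * s * (a - b) ^ 2) = 2 * κ * (a - b) ^ 2 := by
      field_simp
    linarith

section Tensor

variable {E : Type*} [Fintype E] [DecidableEq E] {p : ℝ}

theorem Ex_coord (p : ℝ) (e : E) (ψ : Bool → ℝ) :
    Ex p (fun z : E → Bool => ψ (z e)) = p * ψ true + (1 - p) * ψ false := by
  have h := Ex_prod (E := E) p (fun e' b => if e' = e then ψ b else 1)
  have h1 : ∀ z : E → Bool, ∏ e', (if e' = e then ψ (z e') else 1) = ψ (z e) := by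
    intro z
    rw [Finset.prod_ite_eq' Finset.univ e (fun e' => ψ (z e'))]
    simp
  simp only [h1] at h
  rw [h]
  rw [Finset.prod_eq_single e]
  · simp
  · intro b _ hb
    simp [hb]
  · intro h; exact absurd (Finset.mem_univ e) h

theorem merge_singleton (e : E) (z x : E → Bool) :
    merge {e} z x = Function.update x e (z e) := by
  funext i
  by_cases h : i = e
  · subst h; simp [merge]
  · simp [merge, h]

theorem av_singleton (p : ℝ) (e : E) (G : (E → Bool) → ℝ) (x : E → Bool) :
    av p {e} G x = p * G (Function.update x e true) + (1 - p) * G (Function.update x e false) := by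
  unfold av
  simp only [merge_singleton]
  exact Ex_coord p e (fun b => G (Function.update x e b))

theorem merge_update_of_notMem {Y : Finset E} {e : E} (he : e ∉ Y) (z x : E → Bool) (b : Bool) :
    merge Y z (Function.update x e b) = Function.update (merge Y z x) e b := by
  funext i
  by_cases h : i = e
  · subst h; simp [merge, he]
  · simp [merge, h]

/-- Squared `L²` energy in the direction `e` (pointwise variance in coordinate `e`). -/
noncomputable def Ve (p : ℝ) (e : E) (G : (E → Bool) → ℝ) (x : E → Bool) : ℝ :=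
  p * (1 - p) * (G (Function.update x e true) - G (Function.update x e false)) ^ 2

theorem Ve_update (e : E) (G : (E → Bool) → ℝ) (x : E → Bool) (b : Bool) :
    Ve p e G (Function.update x e b) = Ve p e G x := by
  simp [Ve]

theorem av_nonneg (hp0 : 0 ≤ p) (hp1 : p ≤ 1) (Y : Finset E) {G : (E → Bool) → ℝ}
    (h : ∀ x, 0 ≤ G x) (x : E → Bool) : 0 ≤ av p Y G x :=
  Ex_nonneg hp0 hp1 fun z => h _

theorem av_add (Y : Finset E) (G H : (E → Bool) → ℝ) (x : E → Bool) :
    av p Y (fun x => G x + H x) x = av p Y G x + av p Y H x := Ex_add p _ _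

theorem av_sub (Y : Finset E) (G H : (E → Bool) → ℝ) (x : E → Bool) :
    av p Y (fun x => G x - H x) x = av p Y G x - av p Y H x := Ex_sub p _ _

theorem av_mul_left (Y : Finset E) (c : ℝ) (G : (E → Bool) → ℝ) (x : E → Bool) :
    av p Y (fun x => c * G x) x = c * av p Y G x := Ex_mul_left p c _

theorem av_sum {κ : Type*} (Y : Finset E) (s : Finset κ) (G : κ → (E → Bool) → ℝ) (x : E → Bool) :
    av p Y (fun x => ∑ i ∈ s, G i x) x = ∑ i ∈ s, av p Y (G i) x :=
  Ex_sum p s (fun i z => G i (merge Y z x))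

theorem av_insert (p : ℝ) {Y : Finset E} (e : E) (G : (E → Bool) → ℝ) (x : E → Bool) :
    av p (insert e Y) G x = av p {e} (av p Y G) x := by
  rw [av_av]
  congr 1

/-- Minkowski step. -/
theorem sqrt_diff_le (hp0 : 0 < p) (hp1 : p < 1) {Y : Finset E} {e : E} (he : e ∉ Y)
    (G : (E → Bool) → ℝ) (x : E → Bool) :
    p * (1 - p) * (Real.sqrt (av p Y (fun x => G x ^ 2) (Function.update x e true)) -
      Real.sqrt (av p Y (fun x => G x ^ 2) (Function.update x e false))) ^ 2 ≤
      av p Y (Ve p e G) x := by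
  have hpq : 0 < p * (1 - p) := mul_pos hp0 (by linarith)
  have h1 : ∀ b : Bool, av p Y (fun x => G x ^ 2) (Function.update x e b) =
      Ex p (fun z : E → Bool => G (Function.update (merge Y z x) e b) ^ 2) := by
    intro b
    unfold av
    simp only [merge_update_of_notMem he]
  have h2 : av p Y (Ve p e G) x = p * (1 - p) *
      Ex p (fun z : E → Bool => (G (Function.update (merge Y z x) e true) -
        G (Function.update (merge Y z x) e false)) ^ 2) := by
    unfold av Ve
    rw [← Ex_mul_left]
  rw [h1, h1, h2]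
  apply mul_le_mul_of_nonneg_left _ hpq.le
  set A := fun z : E → Bool => G (Function.update (merge Y z x) e true)
  set B := fun z : E → Bool => G (Function.update (merge Y z x) e false)
  have hcs := Ex_cs hp0.le hp1.le A B
  have hA : 0 ≤ Ex p (fun z => A z ^ 2) := Ex_nonneg hp0.le hp1.le fun z => sq_nonneg _
  have hB : 0 ≤ Ex p (fun z => B z ^ 2) := Ex_nonneg hp0.le hp1.le fun z => sq_nonneg _
  have h3 : Ex p (fun z => A z * B z) ≤
      Real.sqrt (Ex p (fun z => A z ^ 2)) * Real.sqrt (Ex p (fun z => B z ^ 2)) := by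
    rw [← Real.sqrt_mul hA]
    exact Real.le_sqrt_of_sq_le hcs
  have h4 : Ex p (fun z => (A z - B z) ^ 2) =
      Ex p (fun z => A z ^ 2) - 2 * Ex p (fun z => A z * B z) + Ex p (fun z => B z ^ 2) := by
    rw [← Ex_mul_left, ← Ex_sub, ← Ex_add]
    exact Ex_congr p fun z => by ring
  rw [h4]
  have e1 := Real.sq_sqrt hA
  have e2 := Real.sq_sqrt hB
  nlinarith

/-- Tensorized logarithmic Sobolev inequality over the coordinates in `Y`, pointwise in the other
coordinates. -/
theorem logSob (hp0 : 0 < p) (hp1 : p < 1) (G : (E → Bool) → ℝ) (Y : Finset E) :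
    ∀ x, av p Y (fun x => G x ^ 2 * Real.log (G x ^ 2)) x ≤
      av p Y (fun x => G x ^ 2) x * Real.log (av p Y (fun x => G x ^ 2) x) +
        2 / Real.sqrt (p * (1 - p)) * ∑ e ∈ Y, av p Y (Ve p e G) x := by
  have hpq : 0 < p * (1 - p) := mul_pos hp0 (by linarith)
  have hκ0 : 0 < Real.sqrt (p * (1 - p)) := Real.sqrt_pos.mpr hpq
  have hκκ : Real.sqrt (p * (1 - p)) ^ 2 = p * (1 - p) := Real.sq_sqrt hpq.le
  induction Y using Finset.induction_on with
  | empty =>
    intro x
    have h : ∀ F : (E → Bool) → ℝ, av p ∅ F x = F x := by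
      intro F
      exact av_of_indep p (by intro z y; congr 1) x
    rw [h, h]
    simp
  | insert e Y he ih =>
    intro x
    set H : (E → Bool) → ℝ := av p Y (fun x => G x ^ 2) with hH
    have hHn : ∀ y, 0 ≤ H y := fun y => av_nonneg hp0.le hp1.le Y (fun _ => sq_nonneg _) y
    -- average the induction hypothesis over `e`
    have h1 : av p (insert e Y) (fun x => G x ^ 2 * Real.log (G x ^ 2)) x ≤
        av p {e} (fun y => H y * Real.log (H y)) x +
          2 / Real.sqrt (p * (1 - p)) * ∑ e' ∈ Y, av p (insert e Y) (Ve p e' G) x := by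
      rw [av_insert]
      refine (av_mono hp0.le hp1.le {e} ih x).trans ?_
      rw [av_add, av_mul_left, av_sum]
      simp only [av_insert]
      exact le_refl _
    -- two-point inequality
    have h2 : av p {e} (fun y => H y * Real.log (H y)) x ≤
        av p {e} H x * Real.log (av p {e} H x) +
        2 * Real.sqrt (p * (1 - p)) * (Real.sqrt (H (Function.update x e true)) -
          Real.sqrt (H (Function.update x e false))) ^ 2 := by
      rw [av_singleton, av_singleton]
      have := two_point hp0 hp1 (Real.sqrt_nonneg (H (Function.update x e true)))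
        (Real.sqrt_nonneg (H (Function.update x e false)))
      rw [Real.sq_sqrt (hHn _), Real.sq_sqrt (hHn _)] at this
      exact this
    have h3 := sqrt_diff_le hp0 hp1 he G x
    rw [← hH] at h3
    have h4 : av p (insert e Y) (Ve p e G) x = av p Y (Ve p e G) x := by
      rw [av_insert, av_singleton]
      have : ∀ b, av p Y (Ve p e G) (Function.update x e b) = av p Y (Ve p e G) x := by
        intro b
        unfold av
        refine Ex_congr p fun z => ?_
        rw [merge_update_of_notMem he, Ve_update]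
      rw [this, this]
      ring
    have h5 : 2 * Real.sqrt (p * (1 - p)) * (Real.sqrt (H (Function.update x e true)) -
          Real.sqrt (H (Function.update x e false))) ^ 2 ≤
        2 / Real.sqrt (p * (1 - p)) * av p Y (Ve p e G) x := by
      have e1 : 2 * Real.sqrt (p * (1 - p)) * (Real.sqrt (H (Function.update x e true)) -
          Real.sqrt (H (Function.update x e false))) ^ 2 =
          2 / Real.sqrt (p * (1 - p)) * (p * (1 - p) * (Real.sqrt (H (Function.update x e true)) -
          Real.sqrt (H (Function.update x e false))) ^ 2) := by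
        rw [← hκκ]
        field_simp
        rw [Real.sqrt_sq hκ0.le]
      rw [e1]
      exact mul_le_mul_of_nonneg_left h3 (by positivity)
    have h6 : av p (insert e Y) (fun x => G x ^ 2) x = av p {e} H x := av_insert p e _ x
    rw [Finset.sum_insert he, h6, h4, mul_add]
    linarith

end Tensor

end Crest.Agent.R056E
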