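import Crest.Agent.R056E.SymAvg

/-!
Row 56, short proof (vertex exposure). Part 5: the main inequality.
-/

set_option autoImplicit false
set_option linter.unusedSectionVars false
set_option linter.unusedVariables false

namespace Crest.Agent.R056E

open Finset Crest.FinProb Crest.Agent.R056V Crest.CombinatoricsR.HypergraphCube

variable {n r : ℕ} {p : ℝ}

/-- Vertices with index at least `j`. -/
def tail (n j : ℕ) : Finset (Fin n) := univ.filter (fun i => j ≤ i.val)

/-- Slots touching a vertex of index at least `j`. -/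
def UU (n r j : ℕ) : Finset (HyperedgeSlot n r) := touch r (tail n j)

theorem tail_erase {j : ℕ} (hj : j < n) : (tail n j).erase ⟨j, hj⟩ = tail n (j + 1) := by
  ext i
  simp only [tail, Finset.mem_erase, Finset.mem_filter, Finset.mem_univ, true_and, ne_eq,
    Fin.ext_iff]
  omega

theorem mem_tail {j : ℕ} (hj : j < n) : (⟨j, hj⟩ : Fin n) ∈ tail n j := by
  simp [tail]

theorem card_tail {j : ℕ} (hj : j ≤ n) : (tail n j).card = n - j := by
  unfold tail
  have h : (univ.filter (fun i : Fin n => j ≤ i.val)).card =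
      ((Finset.range n).filter (fun i => j ≤ i)).card := by
    rw [← Finset.card_map Fin.valEmbedding]
    congr 1
    ext i
    simp only [Finset.mem_map, Finset.mem_filter, Finset.mem_univ, true_and, Fin.valEmbedding_apply,
      Finset.mem_range]
    constructor
    · rintro ⟨a, ha, rfl⟩; exact ⟨a.2, ha⟩
    · rintro ⟨h1, h2⟩; exact ⟨⟨i, h1⟩, h2, rfl⟩
  rw [h]
  have : (Finset.range n).filter (fun i => j ≤ i) = Finset.Ico j n := by
    ext i; simp only [Finset.mem_filter, Finset.mem_range, Finset.mem_Ico]; omega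
  rw [this, Nat.card_Ico]

theorem tail_mono {i j : ℕ} (h : i ≤ j) : tail n j ⊆ tail n i := by
  intro a ha
  simp only [tail, Finset.mem_filter, Finset.mem_univ, true_and] at ha ⊢
  omega

theorem UU_mono {i j : ℕ} (h : i ≤ j) : UU n r j ⊆ UU n r i := touch_mono (tail_mono h)

/-- The vertex exposure martingale difference. -/
noncomputable def dd (p : ℝ) (F : (HyperedgeSlot n r → Bool) → ℝ) (j : ℕ) :
    (HyperedgeSlot n r → Bool) → ℝ :=
  fun y => av p (UU n r (j + 1)) F y - av p (UU n r j) F y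

theorem dd_eq (F : (HyperedgeSlot n r → Bool) → ℝ) {j : ℕ} (hj : j < n) :
    dd p F j = gA p F (tail n j) ⟨j, hj⟩ := by
  unfold dd gA UU
  rw [tail_erase hj]

/-- Slots whose largest vertex is `j`. -/
def YY (n r j : ℕ) : Finset (HyperedgeSlot n r) := UU n r j \ UU n r (j + 1)

theorem av_dd_sq (F : (HyperedgeSlot n r → Bool) → ℝ) (j : ℕ) (x : HyperedgeSlot n r → Bool) :
    av p (YY n r j) (fun y => dd p F j y ^ 2) x = av p (UU n r j) (fun y => dd p F j y ^ 2) x := by
  have hsub : UU n r (j + 1) ⊆ UU n r j := UU_mono (Nat.le_succ j)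
  have hind : Indep (UU n r (j + 1)) (fun y => dd p F j y ^ 2) := by
    intro z y
    unfold dd
    beta_reduce
    rw [indep_av p _ F z y, (indep_av p (UU n r j) F).mono hsub z y]
  have h1 : UU n r j = YY n r j ∪ UU n r (j + 1) := by
    unfold YY
    rw [Finset.sdiff_union_of_subset hsub]
  have h2 : av p (UU n r j) (fun y => dd p F j y ^ 2) x =
      av p (YY n r j) (av p (UU n r (j + 1)) (fun y => dd p F j y ^ 2)) x := by
    rw [av_av, ← h1]
  rw [h2]
  exact av_congr p _ (fun y => (av_of_indep p hind y).symm) x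

theorem av_dd_sq_le (hp0 : 0 ≤ p) (hp1 : p ≤ 1) {F : (HyperedgeSlot n r → Bool) → ℝ}
    (hF01 : ∀ x, F x = 0 ∨ F x = 1)
    (hF : ∀ (σ : Equiv.Perm (Fin n)) x, F (relabel σ x) = F x) {j M : ℕ} (hM : 1 ≤ M)
    (hj : j + M ≤ n) (x : HyperedgeSlot n r → Bool) :
    av p (YY n r j) (fun y => dd p F j y ^ 2) x ≤ 1 / (4 * (M : ℝ)) := by
  have hjn : j < n := by omega
  rw [av_dd_sq]
  have h := av_gA_sq_le hp0 hp1 F hF01 hF (mem_tail hjn) x
  rw [← dd_eq F hjn] at h
  refine h.trans ?_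
  rw [card_tail hjn.le]
  have hM0 : (0 : ℝ) < M := by exact_mod_cast hM
  apply one_div_le_one_div_of_le (by positivity)
  have : (M : ℝ) ≤ ((n - j : ℕ) : ℝ) := by
    exact_mod_cast (by omega : M ≤ n - j)
  linarith

theorem Ex_dd_sq (F : (HyperedgeSlot n r → Bool) → ℝ) (j : ℕ) :
    Ex p (fun x => dd p F j x ^ 2) = NN p F (UU n r (j + 1)) - NN p F (UU n r j) :=
  Ex_sub_sq F (UU_mono (Nat.le_succ j))

theorem sum_Ex_dd_sq (F : (HyperedgeSlot n r → Bool) → ℝ) (J : ℕ) :
    ∑ j ∈ Finset.range J, Ex p (fun x => dd p F j x ^ 2) =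
      NN p F (UU n r J) - NN p F (UU n r 0) := by
  simp only [Ex_dd_sq]
  exact Finset.sum_range_sub (fun j => NN p F (UU n r j)) J

/-- `L¹` bound of the martingale differences. -/
theorem Ex_abs_dd (hp0 : 0 ≤ p) (hp1 : p ≤ 1) {F : (HyperedgeSlot n r → Bool) → ℝ}
    (hF01 : ∀ x, F x = 0 ∨ F x = 1) {j : ℕ} (hj : j < n) :
    Ex p (fun x => |dd p F j x|) ≤ 2 * (NN p F ∅ - NN p F (touch r {⟨j, hj⟩})) := by
  rw [← Ex_abs_sub_av hp0 hp1 F hF01]
  have h1 : ∀ x, dd p F j x =
      av p (UU n r (j + 1)) (fun y => F y - av p (touch r {⟨j, hj⟩}) F y) x := by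
    intro x
    rw [av_sub, av_av]
    unfold dd UU
    rw [← touch_union]
    have : tail n (j + 1) ∪ {(⟨j, hj⟩ : Fin n)} = tail n j := by
      ext i
      simp only [tail, Finset.mem_union, Finset.mem_filter, Finset.mem_univ, true_and,
        Finset.mem_singleton, Fin.ext_iff]
      omega
    rw [this]
  rw [Ex_congr p (fun x => by rw [h1 x])]
  exact Ex_abs_av_le hp0 hp1 _ _

theorem NN_diff (hp0 : 0 < p) (hp1 : p < 1) (F : (HyperedgeSlot n r → Bool) → ℝ)
    (B : Finset (Fin n)) :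
    NN p F ∅ - NN p F (touch r B) ≤ ∑ b ∈ B, sdeg p F b := by
  rw [NN_eq hp0 hp1, NN_eq hp0 hp1, ← Finset.sum_sub_distrib]
  unfold sdeg
  rw [Finset.sum_comm]
  refine Finset.sum_le_sum fun S _ => ?_
  rw [← Finset.mul_sum]
  have hw := sq_nonneg (fc p F S)
  have hn : (0 : ℝ) ≤ ∑ b ∈ B, (deg S b : ℝ) := Finset.sum_nonneg fun _ _ => Nat.cast_nonneg _
  by_cases h : Disjoint S (touch r B)
  · simp only [h, Finset.disjoint_empty_right, if_true, sub_self]
    exact mul_nonneg hw hn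
  · simp only [h, Finset.disjoint_empty_right, if_true, if_false, sub_zero]
    have h1 : (1 : ℝ) ≤ ∑ b ∈ B, (deg S b : ℝ) := by
      rw [Finset.not_disjoint_iff] at h
      obtain ⟨e, he, heB⟩ := h
      obtain ⟨i, hi, hiB⟩ := mem_touch'.mp heB
      have h2 : 1 ≤ deg S i := by
        unfold deg
        exact Finset.card_pos.mpr ⟨e, Finset.mem_filter.mpr ⟨he, hi⟩⟩
      calc (1 : ℝ) ≤ (deg S i : ℝ) := by exact_mod_cast h2
        _ ≤ _ := Finset.single_le_sum (f := fun b => (deg S b : ℝ))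
            (fun _ _ => Nat.cast_nonneg _) hiB
    nlinarith

/-- Energy of the martingale differences. -/
theorem energy_le (hp0 : 0 < p) (hp1 : p < 1) (F : (HyperedgeSlot n r → Bool) → ℝ) {J : ℕ}
    (hJ : J ≤ n) :
    ∑ j ∈ Finset.range J, ∑ e ∈ YY n r j, Ex p (Ve p e (dd p F j)) ≤
      ∑ S : Finset (HyperedgeSlot n r), fc p F S ^ 2 * (top S : ℝ) := by
  have h1 : ∀ j, ∀ e ∈ YY n r j, Ex p (Ve p e (dd p F j)) =
      ∑ S : Finset (HyperedgeSlot n r), if e ∈ S ∧ Disjoint S (UU n r (j + 1))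
        then fc p F S ^ 2 else 0 := by
    intro j e he
    exact Ex_Ve_diff hp0 hp1 F (UU_mono (Nat.le_succ j)) e (Finset.mem_sdiff.mp he).1
  rw [Finset.sum_congr rfl (fun j _ => Finset.sum_congr rfl (fun e he => h1 j e he))]
  have h2 : ∑ j ∈ Finset.range J, ∑ e ∈ YY n r j, ∑ S : Finset (HyperedgeSlot n r),
      (if e ∈ S ∧ Disjoint S (UU n r (j + 1)) then fc p F S ^ 2 else 0) =
      ∑ S : Finset (HyperedgeSlot n r), ∑ j ∈ Finset.range J, ∑ e ∈ YY n r j,
      (if e ∈ S ∧ Disjoint S (UU n r (j + 1)) then fc p F S ^ 2 else 0) := by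
    rw [Finset.sum_comm]
    refine Finset.sum_congr rfl fun j _ => ?_
    rw [Finset.sum_comm]
  rw [h2]
  refine Finset.sum_le_sum fun S _ => ?_
  have hw := sq_nonneg (fc p F S)
  have h3 : ∀ j (hj : j < n), ∑ e ∈ YY n r j,
      (if e ∈ S ∧ Disjoint S (UU n r (j + 1)) then fc p F S ^ 2 else 0) ≤
      fc p F S ^ 2 * ((if (∀ e ∈ S, ∀ i ∈ e.1, i ≤ (⟨j, hj⟩ : Fin n)) then deg S ⟨j, hj⟩ else 0 : ℕ) : ℝ) := by
    intro j hj
    by_cases hD : Disjoint S (UU n r (j + 1))
    · have hall : ∀ e ∈ S, ∀ i ∈ e.1, i ≤ (⟨j, hj⟩ : Fin n) := by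
        intro e he i hi
        by_contra hlt
        push Not at hlt
        refine (Finset.disjoint_left.mp hD he) ?_
        unfold UU
        rw [mem_touch']
        refine ⟨i, hi, ?_⟩
        simp only [tail, Finset.mem_filter, Finset.mem_univ, true_and]
        exact hlt
      rw [if_pos hall]
      simp only [hD, and_true]
      rw [← Finset.sum_filter, Finset.sum_const, nsmul_eq_mul, mul_comm]
      apply mul_le_mul_of_nonneg_left _ hw
      unfold deg
      norm_cast
      apply Finset.card_le_card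
      intro e he
      rw [Finset.mem_filter] at he ⊢
      refine ⟨he.2, ?_⟩
      have h4 := Finset.mem_sdiff.mp he.1
      obtain ⟨i, hi, hit⟩ := mem_touch'.mp h4.1
      have h5 : i ≤ (⟨j, hj⟩ : Fin n) := hall e he.2 i hi
      have h6 : j ≤ i.val := by simpa [tail] using hit
      have h7 : i = (⟨j, hj⟩ : Fin n) := le_antisymm h5 h6
      rwa [h7] at hi
    · have : ∀ e ∈ YY n r j, (if e ∈ S ∧ Disjoint S (UU n r (j + 1)) then fc p F S ^ 2 else 0)
          = 0 := fun e _ => if_neg (fun h => hD h.2)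
      rw [Finset.sum_congr rfl this, Finset.sum_const_zero]
      exact mul_nonneg hw (Nat.cast_nonneg _)
  have h4 : ∑ j ∈ Finset.range J, ∑ e ∈ YY n r j,
      (if e ∈ S ∧ Disjoint S (UU n r (j + 1)) then fc p F S ^ 2 else 0) ≤
      ∑ j ∈ Finset.range n, ∑ e ∈ YY n r j,
      (if e ∈ S ∧ Disjoint S (UU n r (j + 1)) then fc p F S ^ 2 else 0) := by
    apply Finset.sum_le_sum_of_subset_of_nonneg (Finset.range_mono hJ)
    intro j _ _
    exact Finset.sum_nonneg fun e _ => by split_ifs <;> positivity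
  refine h4.trans ?_
  rw [Finset.sum_range]
  unfold top
  push_cast
  rw [Finset.mul_sum]
  refine Finset.sum_le_sum fun i _ => ?_
  have := h3 i.val i.isLt
  push_cast at this
  exact this

theorem UU_zero (hr : 1 ≤ r) : UU n r 0 = univ := by
  ext e
  simp only [Finset.mem_univ, iff_true]
  unfold UU
  rw [mem_touch']
  have : e.1.Nonempty := by
    rw [← Finset.card_pos, e.2]; omega
  obtain ⟨i, hi⟩ := this
  exact ⟨i, hi, by simp [tail]⟩

/-- The main inequality. -/
theorem main_ineq (hp0 : 0 < p) (hp1 : p < 1) (hr : 1 ≤ r)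
    {F : (HyperedgeSlot n r → Bool) → ℝ} (hF01 : ∀ x, F x = 0 ∨ F x = 1)
    (hF : ∀ (σ : Equiv.Perm (Fin n)) x, F (relabel σ x) = F x) {M : ℕ} (hM : 1 ≤ M) (hMn : M ≤ n)
    {τ k : ℝ} (hτ : 0 < τ) (hk : 0 < k) (hΛ : 1 ≤ 4 * (M : ℝ) * τ ^ 2) :
    Real.log (4 * (M : ℝ) * τ ^ 2) * (VarF p F - ((M : ℝ) / n + 2 * τ) * (r * EF p F)) - VarF p F ≤
      2 / Real.sqrt (p * (1 - p)) * (r * (k ^ (r - 1) * VarF p F + EF p F / k)) := by
  have hn0 : 0 < n := by omega
  have hn : (0 : ℝ) < n := by exact_mod_cast hn0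
  have hM0 : (0 : ℝ) < M := by exact_mod_cast hM
  have hΛ0 : 0 ≤ Real.log (4 * (M : ℝ) * τ ^ 2) := Real.log_nonneg hΛ
  obtain ⟨J, hJ⟩ : ∃ J, J + M = n := ⟨n - M, by omega⟩
  -- per-step inequality
  have hstep : ∀ j ∈ Finset.range J,
      Real.log (4 * (M : ℝ) * τ ^ 2) * (Ex p (fun x => dd p F j x ^ 2) -
        τ * Ex p (fun x => |dd p F j x|)) - Ex p (fun x => dd p F j x ^ 2) ≤
      2 / Real.sqrt (p * (1 - p)) * ∑ e ∈ YY n r j, Ex p (Ve p e (dd p F j)) := by
    intro j hj
    rw [Finset.mem_range] at hj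
    exact one_step hp0 hp1 (dd p F j) (YY n r j) hM0 hτ hΛ
      (av_dd_sq_le hp0.le hp1.le hF01 hF hM (by omega))
  have hsum := Finset.sum_le_sum hstep
  rw [← Finset.mul_sum, Finset.sum_sub_distrib, ← Finset.mul_sum, Finset.sum_sub_distrib,
    ← Finset.mul_sum, sum_Ex_dd_sq] at hsum
  -- the energy
  have hen := energy_le hp0 hp1 F (J := J) (by omega)
  have htop := sum_top_weighted_le (p := p) hr hF hk
  -- sums of norms
  have hvar : NN p F ∅ - NN p F (UU n r 0) = VarF p F := by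
    rw [NN_eq hp0 hp1, NN_eq hp0 hp1, ← Finset.sum_sub_distrib, UU_zero hr]
    unfold VarF
    refine Finset.sum_congr rfl fun S _ => ?_
    by_cases hS : S.Nonempty
    · have : ¬ Disjoint S univ := by
        rw [Finset.disjoint_iff_inter_eq_empty, Finset.inter_univ]
        exact hS.ne_empty
      simp [hS, this]
    · rw [Finset.not_nonempty_iff_eq_empty] at hS
      subst hS
      simp
  have hEF : ∀ b : Fin n, sdeg p F b = r * EF p F / n := by
    intro b
    rw [eq_div_iff hn.ne', mul_comm]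
    exact mul_sdeg hF b
  have hA : NN p F ∅ - NN p F (UU n r J) ≤ (M : ℝ) / n * (r * EF p F) := by
    refine (NN_diff hp0 hp1 F (tail n J)).trans (le_of_eq ?_)
    rw [Finset.sum_congr rfl (fun b _ => hEF b), Finset.sum_const, card_tail (by omega),
      nsmul_eq_mul]
    have : n - J = M := by omega
    rw [this]
    ring
  have hB : ∑ j ∈ Finset.range J, Ex p (fun x => |dd p F j x|) ≤ 2 * (r * EF p F) := by
    have h1 : ∀ j ∈ Finset.range J, Ex p (fun x => |dd p F j x|) ≤ 2 * (r * EF p F / n) := by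
      intro j hj
      have hjn : j < n := by rw [Finset.mem_range] at hj; omega
      refine (Ex_abs_dd hp0.le hp1.le hF01 hjn).trans ?_
      have := NN_diff hp0 hp1 F {(⟨j, hjn⟩ : Fin n)}
      rw [Finset.sum_singleton, hEF] at this
      linarith
    refine (Finset.sum_le_sum h1).trans ?_
    rw [Finset.sum_const, Finset.card_range, nsmul_eq_mul]
    have hE0 : 0 ≤ r * EF p F := by
      apply mul_nonneg (Nat.cast_nonneg _)
      exact Finset.sum_nonneg fun S _ => by positivity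
    have h2 : (J : ℝ) ≤ n := by exact_mod_cast (by omega : J ≤ n)
    have h3 : (J : ℝ) * (2 * (r * EF p F / n)) ≤ n * (2 * (r * EF p F / n)) := by
      apply mul_le_mul_of_nonneg_right h2
      positivity
    refine h3.trans (le_of_eq ?_)
    field_simp
  have hC : NN p F (UU n r J) ≤ NN p F ∅ := by
    have := Ex_sub_sq (p := p) F (Finset.empty_subset (UU n r J))
    have h2 : 0 ≤ Ex p (fun x => (av p ∅ F x - av p (UU n r J) F x) ^ 2) :=
      Ex_nonneg hp0.le hp1.le fun _ => sq_nonneg _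
    linarith
  have hκ : 0 ≤ 2 / Real.sqrt (p * (1 - p)) := by positivity
  have h5 : 2 / Real.sqrt (p * (1 - p)) * ∑ j ∈ Finset.range J, ∑ e ∈ YY n r j,
      Ex p (Ve p e (dd p F j)) ≤
      2 / Real.sqrt (p * (1 - p)) * (r * (k ^ (r - 1) * VarF p F + EF p F / k)) :=
    mul_le_mul_of_nonneg_left (hen.trans htop) hκ
  have h6 : Real.log (4 * (M : ℝ) * τ ^ 2) *
      (VarF p F - ((M : ℝ) / n + 2 * τ) * (r * EF p F)) ≤
      Real.log (4 * (M : ℝ) * τ ^ 2) * (NN p F (UU n r J) - NN p F (UU n r 0) -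
        τ * ∑ j ∈ Finset.range J, Ex p (fun x => |dd p F j x|)) := by
    apply mul_le_mul_of_nonneg_left _ hΛ0
    have := mul_le_mul_of_nonneg_left hB hτ.le
    nlinarith
  linarith

end Crest.Agent.R056E
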