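import Crest.Agent.R056E.LogSob
import Crest.Prelude.Def_HypergraphCube

/-!
Row 56, short proof (vertex exposure). Part 2: norms of averages, energies, and the pointwise
second moment bound coming from the symmetry.
-/

set_option autoImplicit false
set_option linter.unusedSectionVars false
set_option linter.unusedVariables false

namespace Crest.Agent.R056E

open Finset Crest.FinProb Crest.Agent.R056V

section General

variable {E : Type*} [Fintype E] [DecidableEq E] {p : ℝ}

/-- Squared norm of the average over `D`. -/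
noncomputable def NN (p : ℝ) (F : (E → Bool) → ℝ) (D : Finset E) : ℝ :=
  Ex p (fun x => av p D F x ^ 2)

theorem NN_eq (hp0 : 0 < p) (hp1 : p < 1) (F : (E → Bool) → ℝ) (D : Finset E) :
    NN p F D = ∑ S : Finset E, if Disjoint S D then fc p F S ^ 2 else 0 := by
  unfold NN
  rw [← parseval hp0 hp1]
  refine Finset.sum_congr rfl fun S _ => ?_
  rw [fc_av hp0 hp1]
  split_ifs <;> simp

theorem Ex_av_mul_av (F : (E → Bool) → ℝ) {D D' : Finset E} (h : D ⊆ D') :
    Ex p (fun x => av p D F x * av p D' F x) = NN p F D' := by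
  have h1 : ∀ x, av p D' F x = av p D' (av p D F) x := by
    intro x
    rw [av_av, Finset.union_eq_left.mpr h]
  unfold NN
  have h2 : Ex p (fun x => av p D F x * av p D' F x) =
      Ex p (fun x => av p D F x * av p D' (av p D F) x) := Ex_congr p fun x => by rw [h1 x]
  rw [h2, Ex_mul_av]
  refine Ex_congr p fun x => ?_
  rw [← h1 x, sq]

theorem Ex_sub_sq (F : (E → Bool) → ℝ) {D D' : Finset E} (h : D ⊆ D') :
    Ex p (fun x => (av p D F x - av p D' F x) ^ 2) = NN p F D - NN p F D' := by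
  have h1 : ∀ x, (av p D F x - av p D' F x) ^ 2 =
      av p D F x ^ 2 - 2 * (av p D F x * av p D' F x) + av p D' F x ^ 2 := fun x => by ring
  rw [Ex_congr p h1, Ex_add, Ex_sub, Ex_mul_left, Ex_av_mul_av F h]
  unfold NN
  ring

theorem fc_sub (F G : (E → Bool) → ℝ) (S : Finset E) :
    fc p (fun x => F x - G x) S = fc p F S - fc p G S := by
  unfold fc
  rw [← Ex_sub]
  exact Ex_congr p fun x => by ring

theorem av_empty (F : (E → Bool) → ℝ) (x : E → Bool) : av p ∅ F x = F x :=
  av_of_indep p (by intro z y; congr 1) x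

/-- Energy in direction `e`. -/
theorem Ex_Ve (hp0 : 0 < p) (hp1 : p < 1) (G : (E → Bool) → ℝ) (e : E) :
    Ex p (Ve p e G) = ∑ S : Finset E, if e ∈ S then fc p G S ^ 2 else 0 := by
  have h1 : ∀ x, Ve p e G x = av p {e} (fun x => G x ^ 2) x - av p {e} G x ^ 2 := by
    intro x
    rw [av_singleton, av_singleton]
    unfold Ve
    ring
  have h2 : Ex p (Ve p e G) = Ex p (fun x => G x ^ 2) - NN p G {e} := by
    rw [Ex_congr p h1, Ex_sub]
    unfold NN
    rw [show Ex p (fun x => av p {e} (fun x => G x ^ 2) x) = Ex p (fun x => G x ^ 2) from Ex_av p _ _]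
  rw [h2, NN_eq hp0 hp1, ← parseval hp0 hp1, ← Finset.sum_sub_distrib]
  refine Finset.sum_congr rfl fun S _ => ?_
  by_cases h : e ∈ S
  · simp [h, Finset.disjoint_singleton_right]
  · simp [h, Finset.disjoint_singleton_right]

/-- Energy of a difference of averages. -/
theorem Ex_Ve_diff (hp0 : 0 < p) (hp1 : p < 1) (F : (E → Bool) → ℝ) {D D' : Finset E}
    (h : D ⊆ D') (e : E) (he : e ∈ D') :
    Ex p (Ve p e (fun x => av p D F x - av p D' F x)) =
      ∑ S : Finset E, if e ∈ S ∧ Disjoint S D then fc p F S ^ 2 else 0 := by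
  rw [Ex_Ve hp0 hp1]
  refine Finset.sum_congr rfl fun S _ => ?_
  rw [fc_sub, fc_av hp0 hp1, fc_av hp0 hp1]
  by_cases heS : e ∈ S
  · have hnd : ¬ Disjoint S D' := fun hd => (Finset.disjoint_left.mp hd heS) he
    by_cases hD : Disjoint S D
    · simp [heS, hnd, hD]
    · simp [heS, hnd, hD]
  · simp [heS]

theorem Ex_abs_av_le (hp0 : 0 ≤ p) (hp1 : p ≤ 1) (G : (E → Bool) → ℝ) (D : Finset E) :
    Ex p (fun x => |av p D G x|) ≤ Ex p (fun x => |G x|) := by
  have h : ∀ x, |av p D G x| ≤ av p D (fun x => |G x|) x := fun x => abs_Ex_le hp0 hp1 _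
  refine (Ex_mono hp0 hp1 h).trans (le_of_eq ?_)
  exact Ex_av p D _

/-- `L¹` bound for a `{0,1}`-valued function. -/
theorem Ex_abs_sub_av (hp0 : 0 ≤ p) (hp1 : p ≤ 1) (F : (E → Bool) → ℝ)
    (hF : ∀ x, F x = 0 ∨ F x = 1) (D : Finset E) :
    Ex p (fun x => |F x - av p D F x|) = 2 * (NN p F ∅ - NN p F D) := by
  have hq0 : ∀ x, 0 ≤ av p D F x := fun x =>
    av_nonneg hp0 hp1 D (fun y => by rcases hF y with h | h <;> rw [h] <;> norm_num) x
  have hq1 : ∀ x, av p D F x ≤ 1 := fun x => by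
    have := av_mono hp0 hp1 D (F := F) (G := fun _ => 1)
      (fun y => by rcases hF y with h | h <;> rw [h] <;> norm_num) x
    refine this.trans (le_of_eq ?_)
    exact Ex_const p 1
  have h1 : ∀ x, |F x - av p D F x| = F x ^ 2 + av p D F x - 2 * (F x * av p D F x) := by
    intro x
    rcases hF x with h | h
    · rw [h]
      rw [abs_of_nonpos (by linarith [hq0 x])]
      ring
    · rw [h]
      rw [abs_of_nonneg (by linarith [hq1 x])]
      ring
  have h2 : Ex p (fun x => F x * av p D F x) = NN p F D := by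
    rw [Ex_mul_av]
    exact Ex_congr p fun x => (sq _).symm
  have h3 : Ex p (fun x => av p D F x) = NN p F ∅ := by
    rw [show Ex p (fun x => av p D F x) = Ex p F from Ex_av p D F]
    unfold NN
    refine Ex_congr p fun x => ?_
    rw [av_empty]
    rcases hF x with h | h <;> rw [h] <;> norm_num
  have h4 : Ex p (fun x => F x ^ 2) = NN p F ∅ := by
    unfold NN
    exact Ex_congr p fun x => by rw [av_empty]
  rw [Ex_congr p h1, Ex_sub, Ex_add, Ex_mul_left, h2, h3, h4]
  ring

/-- Pointwise entropy bound. -/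
theorem pointwise {d D M τ : ℝ} (hD0 : 0 ≤ D) (hM : 0 < M) (hD : D ≤ 1 / (4 * M)) (hτ : 0 < τ)
    (hΛ : 1 ≤ 4 * M * τ ^ 2) (hdD : D = 0 → d = 0) :
    Real.log (4 * M * τ ^ 2) * (d ^ 2 - τ * |d|) - D ≤
      d ^ 2 * Real.log (d ^ 2) - d ^ 2 * Real.log D := by
  have hΛ0 : 0 ≤ Real.log (4 * M * τ ^ 2) := Real.log_nonneg hΛ
  rcases hD0.eq_or_lt with h | hDpos
  · have hd := hdD h.symm
    rw [hd, ← h]
    simp
  · by_cases hdt : τ ≤ |d|
    · have hdpos : 0 < |d| := hτ.trans_le hdt
      have hd2 : 0 < d ^ 2 := by rw [← sq_abs]; positivity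
      have h1 : Real.log (4 * M * τ ^ 2) ≤ Real.log (d ^ 2) - Real.log D := by
        rw [← Real.log_div hd2.ne' hDpos.ne']
        apply Real.log_le_log (by positivity)
        rw [le_div_iff₀ hDpos]
        have h2 : τ ^ 2 ≤ d ^ 2 := by
          rw [← sq_abs d]
          exact pow_le_pow_left₀ hτ.le hdt 2
        have h3 : 4 * M * D ≤ 1 := by
          have := mul_le_mul_of_nonneg_left hD (by positivity : (0:ℝ) ≤ 4 * M)
          rwa [mul_one_div_cancel (by positivity)] at this
        have h4 : 4 * M * τ ^ 2 * D = (4 * M * D) * τ ^ 2 := by ring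
        rw [h4]
        nlinarith [sq_nonneg τ]
      have h5 : d ^ 2 * Real.log (4 * M * τ ^ 2) ≤ d ^ 2 * (Real.log (d ^ 2) - Real.log D) :=
        mul_le_mul_of_nonneg_left h1 hd2.le
      have h6 : 0 ≤ Real.log (4 * M * τ ^ 2) * (τ * |d|) := by positivity
      nlinarith
    · push Not at hdt
      have h1 : d ^ 2 - τ * |d| ≤ 0 := by
        rw [← sq_abs d]
        nlinarith [abs_nonneg d]
      have h2 : Real.log (4 * M * τ ^ 2) * (d ^ 2 - τ * |d|) ≤ 0 :=
        mul_nonpos_of_nonneg_of_nonpos hΛ0 h1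
      -- `t log t ≥ -1`
      have h3 : -D ≤ d ^ 2 * Real.log (d ^ 2) - d ^ 2 * Real.log D := by
        rcases (sq_nonneg d).eq_or_lt with h | hd2
        · rw [← h]; simp; exact hDpos.le
        · have h4 := Real.one_sub_inv_le_log_of_pos (div_pos hd2 hDpos)
          rw [Real.log_div hd2.ne' hDpos.ne', inv_div] at h4
          have h5 := mul_le_mul_of_nonneg_left h4 hd2.le
          have h6 : d ^ 2 * (1 - D / d ^ 2) = d ^ 2 - D := by
            rw [mul_sub, mul_one, ← mul_div_assoc, mul_div_cancel_left₀ _ hd2.ne']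
          rw [h6] at h5
          nlinarith
      linarith

/-- One step of the martingale argument. -/
theorem one_step (hp0 : 0 < p) (hp1 : p < 1) (d : (E → Bool) → ℝ) (Y : Finset E) {M τ : ℝ}
    (hM : 0 < M) (hτ : 0 < τ) (hΛ : 1 ≤ 4 * M * τ ^ 2)
    (hD : ∀ x, av p Y (fun y => d y ^ 2) x ≤ 1 / (4 * M)) :
    Real.log (4 * M * τ ^ 2) * (Ex p (fun x => d x ^ 2) - τ * Ex p (fun x => |d x|)) -
        Ex p (fun x => d x ^ 2) ≤
      2 / Real.sqrt (p * (1 - p)) * ∑ e ∈ Y, Ex p (Ve p e d) := by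
  set D := av p Y (fun y => d y ^ 2) with hDdef
  have hD0 : ∀ x, 0 ≤ D x := fun x => av_nonneg hp0.le hp1.le Y (fun _ => sq_nonneg _) x
  have hzero : ∀ x, D x = 0 → d x = 0 := by
    intro x hx
    have h1 : Ex p (fun z : E → Bool => d (merge Y z x) ^ 2) = 0 := hx
    unfold Ex at h1
    rw [Finset.sum_eq_zero_iff_of_nonneg
      (fun z _ => mul_nonneg (bw_nonneg hp0.le hp1.le z) (sq_nonneg _))] at h1
    have h2 := h1 x (Finset.mem_univ x)
    rw [merge_self] at h2
    rcases mul_eq_zero.mp h2 with h3 | h3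
    · exact absurd h3 (bw_pos hp0 hp1 x).ne'
    · exact pow_eq_zero_iff (two_ne_zero) |>.mp h3
  have h1 : ∀ x, Real.log (4 * M * τ ^ 2) * (d x ^ 2 - τ * |d x|) - D x ≤
      d x ^ 2 * Real.log (d x ^ 2) - d x ^ 2 * Real.log (D x) := fun x =>
    pointwise (hD0 x) hM (hD x) hτ hΛ (hzero x)
  have h2 := Ex_mono hp0.le hp1.le h1
  rw [Ex_sub, Ex_sub, Ex_mul_left, Ex_sub, Ex_mul_left] at h2
  have h3 : Ex p D = Ex p (fun x => d x ^ 2) := Ex_av p Y _
  -- `E[d² log D] = E[D log D]`
  have h4 : Ex p (fun x => d x ^ 2 * Real.log (D x)) = Ex p (fun x => D x * Real.log (D x)) := by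
    have e1 : Indep Y (fun x => Real.log (D x)) := (indep_av p Y _).comp Real.log
    have e2 : Ex p (fun x => d x ^ 2 * Real.log (D x)) =
        Ex p (av p Y (fun x => Real.log (D x) * d x ^ 2)) := by
      rw [Ex_av]
      exact Ex_congr p fun x => mul_comm _ _
    rw [e2]
    refine Ex_congr p fun x => ?_
    rw [av_mul_indep p e1, mul_comm]
  have h5 := Ex_mono hp0.le hp1.le (logSob hp0 hp1 d Y)
  rw [Ex_av, Ex_add, Ex_mul_left, Ex_sum] at h5
  simp only [Ex_av] at h5
  rw [h3, h4] at h2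
  rw [← hDdef] at h5
  linarith

end General

end Crest.Agent.R056E
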