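import Crest.Agent.R056E.Mart

/-!
Row 56, short proof (vertex exposure). Part 3: symmetry.
-/

set_option autoImplicit false
set_option linter.unusedSectionVars false
set_option linter.unusedVariables false

namespace Crest.Agent.R056E

open Finset Crest.FinProb Crest.Agent.R056V Crest.CombinatoricsR.HypergraphCube

variable {n r : ℕ} {p : ℝ}

/-- Slots touching the vertex set `A`. -/
def touch (r : ℕ) (A : Finset (Fin n)) : Finset (HyperedgeSlot n r) :=
  univ.filter (fun e => ¬ Disjoint e.1 A)

theorem mem_touch {A : Finset (Fin n)} {e : HyperedgeSlot n r} :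
    e ∈ touch r A ↔ ¬ Disjoint e.1 A := by simp [touch]

theorem mem_touch' {A : Finset (Fin n)} {e : HyperedgeSlot n r} :
    e ∈ touch r A ↔ ∃ i ∈ e.1, i ∈ A := by
  rw [mem_touch, Finset.not_disjoint_iff]

theorem touch_union (A B : Finset (Fin n)) : touch r (A ∪ B) = touch r A ∪ touch r B := by
  ext e
  simp only [Finset.mem_union, mem_touch']
  constructor
  · rintro ⟨i, hi, h | h⟩
    · exact Or.inl ⟨i, hi, h⟩
    · exact Or.inr ⟨i, hi, h⟩
  · rintro (⟨i, hi, h⟩ | ⟨i, hi, h⟩)
    · exact ⟨i, hi, Or.inl h⟩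
    · exact ⟨i, hi, Or.inr h⟩

theorem touch_mono {A B : Finset (Fin n)} (h : A ⊆ B) : touch r A ⊆ touch r B := by
  intro e he
  rw [mem_touch'] at he ⊢
  obtain ⟨i, hi, hA⟩ := he
  exact ⟨i, hi, h hA⟩

theorem relabelSlot_mul (σ τ : Equiv.Perm (Fin n)) (e : HyperedgeSlot n r) :
    relabelSlot σ (relabelSlot τ e) = relabelSlot (σ * τ) e := by
  apply Subtype.ext
  simp only [relabelSlot, Finset.map_map]
  rfl

theorem relabelSlot_one (e : HyperedgeSlot n r) : relabelSlot 1 e = e := by
  apply Subtype.ext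
  simp only [relabelSlot]
  ext i
  rw [Finset.mem_map]
  constructor
  · rintro ⟨j, hj, rfl⟩; exact hj
  · intro hi; exact ⟨i, hi, rfl⟩

/-- The permutation of slots induced by a vertex permutation. -/
def slotEquiv (r : ℕ) (σ : Equiv.Perm (Fin n)) : HyperedgeSlot n r ≃ HyperedgeSlot n r where
  toFun := relabelSlot σ
  invFun := relabelSlot σ⁻¹
  left_inv e := by rw [relabelSlot_mul, inv_mul_cancel, relabelSlot_one]
  right_inv e := by rw [relabelSlot_mul, mul_inv_cancel, relabelSlot_one]

theorem mem_relabelSlot {σ : Equiv.Perm (Fin n)} {e : HyperedgeSlot n r} {i : Fin n} :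
    σ i ∈ (relabelSlot σ e).1 ↔ i ∈ e.1 := by
  simp [relabelSlot]

theorem relabelSlot_injective (σ : Equiv.Perm (Fin n)) :
    Function.Injective (relabelSlot (r := r) σ) := (slotEquiv r σ).injective

theorem relabel_mul (σ τ : Equiv.Perm (Fin n)) (x : HyperedgeSlot n r → Bool) :
    relabel σ (relabel τ x) = relabel (τ * σ) x := by
  funext e
  simp only [relabel, relabelSlot_mul]

theorem relabel_one (x : HyperedgeSlot n r → Bool) : relabel 1 x = x := by
  funext e
  simp only [relabel, relabelSlot_one]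

/-- Relabelling as a permutation of outcomes. -/
def relabelEquiv (σ : Equiv.Perm (Fin n)) :
    (HyperedgeSlot n r → Bool) ≃ (HyperedgeSlot n r → Bool) where
  toFun := relabel σ
  invFun := relabel σ⁻¹
  left_inv x := by rw [relabel_mul, mul_inv_cancel, relabel_one]
  right_inv x := by rw [relabel_mul, inv_mul_cancel, relabel_one]

theorem weight_relabel (σ : Equiv.Perm (Fin n)) (x : HyperedgeSlot n r → Bool) :
    bernoulliWeight p (relabel σ x) = bernoulliWeight p x := by
  unfold bernoulliWeight
  exact Equiv.prod_comp (slotEquiv r σ) (fun e => if x e = true then p else 1 - p)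

theorem Ex_relabel (σ : Equiv.Perm (Fin n)) (G : (HyperedgeSlot n r → Bool) → ℝ) :
    Ex p (fun x => G (relabel σ x)) = Ex p G := by
  unfold Ex
  rw [← Equiv.sum_comp (relabelEquiv σ) (fun x => bernoulliWeight p x * G x)]
  refine Finset.sum_congr rfl fun x _ => ?_
  show _ = bernoulliWeight p (relabel σ x) * G (relabel σ x)
  rw [weight_relabel]

theorem relabel_merge (σ : Equiv.Perm (Fin n)) (D : Finset (HyperedgeSlot n r))
    (z x : HyperedgeSlot n r → Bool) :
    relabel σ (merge (D.image (relabelSlot σ)) z x) = merge D (relabel σ z) (relabel σ x) := by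
  funext e
  by_cases h : e ∈ D
  · have h' : relabelSlot σ e ∈ D.image (relabelSlot σ) := Finset.mem_image_of_mem _ h
    simp only [relabel, merge, h, h', if_true]
  · have h' : relabelSlot σ e ∉ D.image (relabelSlot σ) := by
      intro hc
      obtain ⟨e', he', heq⟩ := Finset.mem_image.mp hc
      exact h (relabelSlot_injective σ heq ▸ he')
    simp only [relabel, merge, h, h', if_false]

/-- Averages of an invariant function. -/
theorem av_relabel {F : (HyperedgeSlot n r → Bool) → ℝ}
    (hF : ∀ (σ : Equiv.Perm (Fin n)) x, F (relabel σ x) = F x) (σ : Equiv.Perm (Fin n))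
    (D : Finset (HyperedgeSlot n r)) (x : HyperedgeSlot n r → Bool) :
    av p D F (relabel σ x) = av p (D.image (relabelSlot σ)) F x := by
  unfold av
  rw [← Ex_relabel σ (fun z => F (merge D z (relabel σ x)))]
  refine Ex_congr p fun z => ?_
  rw [← relabel_merge, hF]

theorem image_touch (σ : Equiv.Perm (Fin n)) (A : Finset (Fin n)) :
    (touch r A).image (relabelSlot σ) = touch r (A.image σ) := by
  ext e
  simp only [Finset.mem_image, mem_touch']
  constructor
  · rintro ⟨e', ⟨i, hi, hA⟩, rfl⟩
    exact ⟨σ i, mem_relabelSlot.mpr hi, i, hA, rfl⟩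
  · rintro ⟨i, hi, a, ha, rfl⟩
    refine ⟨relabelSlot σ⁻¹ e, ⟨a, ?_, ha⟩, ?_⟩
    · have := (mem_relabelSlot (σ := σ⁻¹) (e := e) (i := σ a)).mpr hi
      simpa using this
    · rw [relabelSlot_mul, mul_inv_cancel, relabelSlot_one]

theorem image_swap {A : Finset (Fin n)} {a b : Fin n} (ha : a ∈ A) (hb : b ∈ A) :
    A.image (Equiv.swap a b) = A := by
  ext i
  simp only [Finset.mem_image]
  constructor
  · rintro ⟨j, hj, rfl⟩
    by_cases h1 : j = a
    · subst h1; simpa using hb
    · by_cases h2 : j = b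
      · subst h2; simpa using ha
      · rwa [Equiv.swap_apply_of_ne_of_ne h1 h2]
  · intro hi
    refine ⟨Equiv.swap a b i, ?_, by simp⟩
    by_cases h1 : i = a
    · subst h1; simpa using hb
    · by_cases h2 : i = b
      · subst h2; simpa using ha
      · rwa [Equiv.swap_apply_of_ne_of_ne h1 h2]

theorem image_swap_erase {A : Finset (Fin n)} {a b : Fin n} (ha : a ∈ A) (hb : b ∈ A) :
    (A.erase a).image (Equiv.swap a b) = A.erase b := by
  rw [Finset.image_erase (Equiv.swap a b).injective, image_swap ha hb]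
  simp

theorem relabelSlot_eq_of_disjoint {A : Finset (Fin n)} {a b : Fin n} (ha : a ∈ A) (hb : b ∈ A)
    {e : HyperedgeSlot n r} (he : e ∉ touch r A) : relabelSlot (Equiv.swap a b) e = e := by
  rw [mem_touch, not_not] at he
  apply Subtype.ext
  simp only [relabelSlot]
  ext i
  simp only [Finset.mem_map, Equiv.coe_toEmbedding]
  constructor
  · rintro ⟨j, hj, rfl⟩
    have hjA := Finset.disjoint_left.mp he hj
    have h1 : j ≠ a := fun h => hjA (h ▸ ha)
    have h2 : j ≠ b := fun h => hjA (h ▸ hb)
    rwa [Equiv.swap_apply_of_ne_of_ne h1 h2]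
  · intro hi
    have hiA := Finset.disjoint_left.mp he hi
    exact ⟨i, hi, Equiv.swap_apply_of_ne_of_ne (fun h => hiA (h ▸ ha)) (fun h => hiA (h ▸ hb))⟩

/-- The conditional increment of the vertex `a` over the complement of `A`. -/
noncomputable def gA (p : ℝ) (F : (HyperedgeSlot n r → Bool) → ℝ) (A : Finset (Fin n)) (a : Fin n) :
    (HyperedgeSlot n r → Bool) → ℝ :=
  fun y => av p (touch r (A.erase a)) F y - av p (touch r A) F y

theorem gA_relabel {F : (HyperedgeSlot n r → Bool) → ℝ}
    (hF : ∀ (σ : Equiv.Perm (Fin n)) x, F (relabel σ x) = F x) {A : Finset (Fin n)} {a b : Fin n}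
    (ha : a ∈ A) (hb : b ∈ A) (x : HyperedgeSlot n r → Bool) :
    gA p F A a (relabel (Equiv.swap a b) x) = gA p F A b x := by
  unfold gA
  rw [av_relabel hF, av_relabel hF, image_touch, image_touch, image_swap_erase ha hb,
    image_swap ha hb]

theorem av_gA_sq_eq {F : (HyperedgeSlot n r → Bool) → ℝ}
    (hF : ∀ (σ : Equiv.Perm (Fin n)) x, F (relabel σ x) = F x) {A : Finset (Fin n)} {a b : Fin n}
    (ha : a ∈ A) (hb : b ∈ A) (x : HyperedgeSlot n r → Bool) :
    av p (touch r A) (fun y => gA p F A b y ^ 2) x =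
      av p (touch r A) (fun y => gA p F A a y ^ 2) x := by
  unfold av
  have h1 : ∀ z : HyperedgeSlot n r → Bool, relabel (Equiv.swap a b) (merge (touch r A) z x) =
      merge (touch r A) (relabel (Equiv.swap a b) z) x := by
    intro z
    have h2 := relabel_merge (Equiv.swap a b) (touch r A) z x
    rw [image_touch, image_swap ha hb] at h2
    rw [h2]
    funext e
    by_cases he : e ∈ touch r A
    · simp [merge, he]
    · simp only [merge, he, if_false, relabel]
      rw [relabelSlot_eq_of_disjoint ha hb he]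
  rw [← Ex_relabel (Equiv.swap a b)
    (fun z => gA p F A a (merge (touch r A) z x) ^ 2)]
  refine Ex_congr p fun z => ?_
  rw [← h1, gA_relabel hF ha hb]

/-- Orthogonality of the increments. -/
theorem av_gA_mul (F : (HyperedgeSlot n r → Bool) → ℝ) {A : Finset (Fin n)} {a b : Fin n}
    (ha : a ∈ A) (hb : b ∈ A) (hab : a ≠ b) (x : HyperedgeSlot n r → Bool) :
    av p (touch r A) (fun y => gA p F A a y * gA p F A b y) x = 0 := by
  have hA : touch r A = touch r (A.erase b) ∪ touch r (A.erase a) := by
    rw [← touch_union]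
    congr 1
    ext i
    simp only [Finset.mem_union, Finset.mem_erase]
    constructor
    · intro hi
      by_cases h : i = b
      · exact Or.inr ⟨fun h' => hab (h'.symm.trans h), hi⟩
      · exact Or.inl ⟨h, hi⟩
    · rintro (⟨_, h⟩ | ⟨_, h⟩) <;> exact h
  have hind : Indep (touch r (A.erase a)) (gA p F A a) := by
    intro z y
    unfold gA
    rw [indep_av p _ F z y,
      (indep_av p (touch r A) F).mono (touch_mono (Finset.erase_subset a A)) z y]
  have h0 : ∀ y, av p (touch r (A.erase a)) (gA p F A b) y = 0 := by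
    intro y
    unfold gA
    rw [av_sub, av_av, av_av]
    have e1 : touch r (A.erase a) ∪ touch r (A.erase b) = touch r A := by
      rw [hA, Finset.union_comm]
    have e2 : touch r (A.erase a) ∪ touch r A = touch r A :=
      Finset.union_eq_right.mpr (touch_mono (Finset.erase_subset a A))
    rw [e1, e2, sub_self]
  have h1 : av p (touch r A) (fun y => gA p F A a y * gA p F A b y) x =
      av p (touch r (A.erase b)) (av p (touch r (A.erase a))
        (fun y => gA p F A a y * gA p F A b y)) x := by
    rw [av_av, ← hA]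
  rw [h1]
  have h2 : ∀ y, av p (touch r (A.erase a)) (fun y => gA p F A a y * gA p F A b y) y = 0 := by
    intro y
    rw [av_mul_indep p hind, h0, mul_zero]
  rw [av_congr p _ h2]
  exact Ex_const p 0

theorem av_gA (F : (HyperedgeSlot n r → Bool) → ℝ) (A : Finset (Fin n)) (a : Fin n)
    (x : HyperedgeSlot n r → Bool) : av p (touch r A) (gA p F A a) x = 0 := by
  unfold gA
  rw [av_sub, av_av, av_av, Finset.union_self,
    Finset.union_eq_left.mpr (touch_mono (Finset.erase_subset a A)), sub_self]

theorem av_F_mul_gA (F : (HyperedgeSlot n r → Bool) → ℝ) (A : Finset (Fin n)) (a : Fin n)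
    (x : HyperedgeSlot n r → Bool) :
    av p (touch r A) (fun y => gA p F A a y * F y) x =
      av p (touch r A) (fun y => gA p F A a y ^ 2) x := by
  have hsub := touch_mono (r := r) (Finset.erase_subset a A)
  have hind : Indep (touch r (A.erase a)) (gA p F A a) := by
    intro z y
    unfold gA
    rw [indep_av p _ F z y, (indep_av p (touch r A) F).mono hsub z y]
  have h1 : av p (touch r A) (fun y => gA p F A a y * F y) x =
      av p (touch r A) (av p (touch r (A.erase a)) (fun y => gA p F A a y * F y)) x := by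
    rw [av_av, Finset.union_eq_left.mpr hsub]
  rw [h1]
  have h2 : ∀ y, av p (touch r (A.erase a)) (fun y => gA p F A a y * F y) y =
      gA p F A a y ^ 2 + av p (touch r A) F y * gA p F A a y := by
    intro y
    rw [av_mul_indep p hind]
    unfold gA
    ring
  rw [av_congr p _ h2, av_add, av_mul_indep p (indep_av p _ F), av_gA, mul_zero, add_zero]

/-- Bessel: the increments of all vertices of `A` together have small second moment. -/
theorem sum_av_gA_sq_le (hp0 : 0 ≤ p) (hp1 : p ≤ 1) (F : (HyperedgeSlot n r → Bool) → ℝ)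
    (hF01 : ∀ x, F x = 0 ∨ F x = 1) (A : Finset (Fin n)) (x : HyperedgeSlot n r → Bool) :
    ∑ a ∈ A, av p (touch r A) (fun y => gA p F A a y ^ 2) x ≤ 1 / 4 := by
  set D := touch r A with hDd
  set h := av p D F with hh
  have hpos : 0 ≤ av p D (fun y => (F y - h y - ∑ a ∈ A, gA p F A a y) ^ 2) x :=
    av_nonneg hp0 hp1 D (fun _ => sq_nonneg _) x
  have e1 : ∀ y, (F y - h y - ∑ a ∈ A, gA p F A a y) ^ 2 =
      F y + h y * (-2 * F y + h y) + (-2) * ∑ a ∈ A, gA p F A a y * F y +
        h y * (2 * ∑ a ∈ A, gA p F A a y) +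
        ∑ a ∈ A, ∑ b ∈ A, gA p F A a y * gA p F A b y := by
    intro y
    have hsq : F y ^ 2 = F y := by rcases hF01 y with h | h <;> rw [h] <;> norm_num
    have : (∑ a ∈ A, gA p F A a y) ^ 2 = ∑ a ∈ A, ∑ b ∈ A, gA p F A a y * gA p F A b y := by
      rw [sq, Finset.sum_mul_sum]
    rw [← this, ← Finset.sum_mul]
    nlinarith [hsq]
  have hI : Indep D h := indep_av p D F
  rw [av_congr p D e1, av_add, av_add, av_add, av_add, av_mul_indep p hI, av_mul_indep p hI,
    av_add, av_mul_left, av_mul_left, av_mul_left, av_sum, av_sum, av_sum] at hpos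
  have e2 : av p D h x = h x := av_of_indep p hI x
  have e3 : ∑ a ∈ A, av p D (gA p F A a) x = 0 :=
    Finset.sum_eq_zero fun a _ => av_gA F A a x
  have e4 : ∀ a ∈ A, av p D (fun y => ∑ b ∈ A, gA p F A a y * gA p F A b y) x =
      av p D (fun y => gA p F A a y ^ 2) x := by
    intro a ha
    rw [av_sum]
    rw [Finset.sum_eq_single a]
    · exact av_congr p D (fun y => (sq _).symm) x
    · intro b hb hba
      exact av_gA_mul F ha hb (Ne.symm hba) x
    · intro hna; exact absurd ha hna
  have e5 : ∑ a ∈ A, av p D (fun y => gA p F A a y * F y) x =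
      ∑ a ∈ A, av p D (fun y => gA p F A a y ^ 2) x :=
    Finset.sum_congr rfl fun a _ => av_F_mul_gA F A a x
  rw [e2, e3, Finset.sum_congr rfl e4, e5, ← hh] at hpos
  nlinarith [sq_nonneg (h x - 1 / 2)]

/-- The pointwise second moment bound. -/
theorem av_gA_sq_le (hp0 : 0 ≤ p) (hp1 : p ≤ 1) (F : (HyperedgeSlot n r → Bool) → ℝ)
    (hF01 : ∀ x, F x = 0 ∨ F x = 1)
    (hF : ∀ (σ : Equiv.Perm (Fin n)) x, F (relabel σ x) = F x) {A : Finset (Fin n)} {a : Fin n}
    (ha : a ∈ A) (x : HyperedgeSlot n r → Bool) :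
    av p (touch r A) (fun y => gA p F A a y ^ 2) x ≤ 1 / (4 * (A.card : ℝ)) := by
  have h1 := sum_av_gA_sq_le hp0 hp1 F hF01 A x
  rw [Finset.sum_congr rfl (fun b hb => av_gA_sq_eq hF ha hb x)] at h1
  rw [Finset.sum_const, nsmul_eq_mul] at h1
  have hc : 0 < (A.card : ℝ) := by exact_mod_cast Finset.card_pos.mpr ⟨a, ha⟩
  rw [le_div_iff₀ (by positivity)]
  nlinarith

end Crest.Agent.R056E
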