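import Crest.Agent.R056E.Sym

/-!
Row 56, short proof (vertex exposure). Part 4: averaging over vertex permutations.
-/

set_option autoImplicit false
set_option linter.unusedSectionVars false
set_option linter.unusedVariables false

namespace Crest.Agent.R056E

open Finset Crest.FinProb Crest.Agent.R056V Crest.CombinatoricsR.HypergraphCube

variable {n r : ℕ} {p : ℝ}

/-- Degree of the vertex `i` in the set `S` of slots. -/
def deg (S : Finset (HyperedgeSlot n r)) (i : Fin n) : ℕ := (S.filter (fun e => i ∈ e.1)).card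

/-- The vertices covered by `S`. -/
def vset (S : Finset (HyperedgeSlot n r)) : Finset (Fin n) := S.biUnion (fun e => e.1)

/-- The degree of the largest vertex. -/
def top (S : Finset (HyperedgeSlot n r)) : ℕ :=
  ∑ i : Fin n, if (∀ e ∈ S, ∀ j ∈ e.1, j ≤ i) then deg S i else 0

theorem mem_vset {S : Finset (HyperedgeSlot n r)} {i : Fin n} :
    i ∈ vset S ↔ ∃ e ∈ S, i ∈ e.1 := by simp [vset]

theorem deg_eq_zero {S : Finset (HyperedgeSlot n r)} {i : Fin n} (h : i ∉ vset S) :
    deg S i = 0 := by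
  unfold deg
  rw [Finset.card_eq_zero, Finset.filter_eq_empty_iff]
  intro e he hi
  exact h (mem_vset.mpr ⟨e, he, hi⟩)

theorem sum_deg (S : Finset (HyperedgeSlot n r)) : ∑ i : Fin n, deg S i = r * S.card := by
  unfold deg
  simp only [Finset.card_filter]
  rw [Finset.sum_comm]
  have : ∀ e ∈ S, ∑ i : Fin n, (if i ∈ e.1 then 1 else 0) = r := by
    intro e _
    rw [← Finset.card_filter]
    have : (univ.filter (fun i => i ∈ e.1)) = e.1 := by ext i; simp
    rw [this, e.2]
  rw [Finset.sum_congr rfl this, Finset.sum_const, smul_eq_mul, mul_comm]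

theorem sum_deg_vset (S : Finset (HyperedgeSlot n r)) :
    ∑ i ∈ vset S, deg S i = r * S.card := by
  rw [← sum_deg]
  exact Finset.sum_subset (Finset.subset_univ _) fun i _ hi => deg_eq_zero hi

theorem deg_image (σ : Equiv.Perm (Fin n)) (S : Finset (HyperedgeSlot n r)) (i : Fin n) :
    deg (S.image (relabelSlot σ)) (σ i) = deg S i := by
  unfold deg
  rw [Finset.filter_image, Finset.card_image_of_injective _ (relabelSlot_injective σ)]
  congr 1
  ext e
  simp only [Finset.mem_filter, mem_relabelSlot]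

theorem top_image (σ : Equiv.Perm (Fin n)) (S : Finset (HyperedgeSlot n r)) :
    top (S.image (relabelSlot σ)) =
      ∑ a : Fin n, if (∀ b ∈ vset S, σ b ≤ σ a) then deg S a else 0 := by
  unfold top
  rw [← Equiv.sum_comp σ]
  refine Finset.sum_congr rfl fun a _ => ?_
  rw [deg_image]
  have : (∀ e ∈ S.image (relabelSlot σ), ∀ j ∈ e.1, j ≤ σ a) ↔ (∀ b ∈ vset S, σ b ≤ σ a) := by
    constructor
    · intro h b hb
      obtain ⟨e, he, hbe⟩ := mem_vset.mp hb
      exact h _ (Finset.mem_image_of_mem _ he) _ (mem_relabelSlot.mpr hbe)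
    · intro h e he j hj
      obtain ⟨e', he', rfl⟩ := Finset.mem_image.mp he
      have hj' : σ (σ⁻¹ j) ∈ (relabelSlot σ e').1 := by simpa using hj
      have h2 := h (σ⁻¹ j) (mem_vset.mpr ⟨e', he', mem_relabelSlot.mp hj'⟩)
      simpa using h2
  simp only [this]

/-- Number of permutations for which `a` is the largest element of `V`. -/
def cnt (V : Finset (Fin n)) (a : Fin n) : ℕ :=
  ((univ : Finset (Equiv.Perm (Fin n))).filter (fun σ => ∀ b ∈ V, σ b ≤ σ a)).card

theorem cnt_eq {V : Finset (Fin n)} {a a' : Fin n} (ha : a ∈ V) (ha' : a' ∈ V) :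
    cnt V a = cnt V a' := by
  unfold cnt
  refine Finset.card_bij' (fun σ _ => σ * Equiv.swap a a') (fun σ _ => σ * Equiv.swap a a')
    ?_ ?_ ?_ ?_
  · intro σ hσ
    simp only [Finset.mem_filter, Finset.mem_univ, true_and] at hσ ⊢
    intro b hb
    have h1 : Equiv.swap a a' b ∈ V := by
      have := image_swap ha ha'
      rw [← this]
      exact Finset.mem_image_of_mem _ hb
    simpa using hσ _ h1
  · intro σ hσ
    simp only [Finset.mem_filter, Finset.mem_univ, true_and] at hσ ⊢
    intro b hb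
    have h1 : Equiv.swap a a' b ∈ V := by
      have := image_swap ha ha'
      rw [← this]
      exact Finset.mem_image_of_mem _ hb
    simpa using hσ _ h1
  · intro σ _
    rw [mul_assoc, Equiv.swap_mul_self, mul_one]
  · intro σ _
    rw [mul_assoc, Equiv.swap_mul_self, mul_one]

theorem sum_cnt {V : Finset (Fin n)} (hV : V.Nonempty) : ∑ a ∈ V, cnt V a = n.factorial := by
  unfold cnt
  simp only [Finset.card_filter]
  rw [Finset.sum_comm]
  have h : ∀ σ : Equiv.Perm (Fin n), ∑ a ∈ V, (if ∀ b ∈ V, σ b ≤ σ a then 1 else 0) = 1 := by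
    intro σ
    obtain ⟨a, ha, hmax⟩ := Finset.exists_max_image V σ hV
    rw [Finset.sum_eq_single a]
    · rw [if_pos hmax]
    · intro b hb hba
      rw [if_neg]
      intro h
      exact hba (σ.injective (le_antisymm (hmax b hb) (h a ha)))
    · intro h; exact absurd ha h
  rw [Finset.sum_congr rfl (fun σ _ => h σ)]
  simp [Fintype.card_perm]

theorem card_mul_cnt {V : Finset (Fin n)} {a : Fin n} (ha : a ∈ V) :
    V.card * cnt V a = n.factorial := by
  rw [← sum_cnt ⟨a, ha⟩, Finset.sum_congr rfl (fun b hb => cnt_eq hb ha)]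
  simp

theorem card_mul_sum_top (S : Finset (HyperedgeSlot n r)) (hS : (vset S).Nonempty) :
    (vset S).card * ∑ σ : Equiv.Perm (Fin n), top (S.image (relabelSlot σ)) =
      n.factorial * (r * S.card) := by
  simp only [top_image]
  rw [Finset.sum_comm]
  have h1 : ∀ a : Fin n, ∑ σ : Equiv.Perm (Fin n),
      (if (∀ b ∈ vset S, σ b ≤ σ a) then deg S a else 0) = cnt (vset S) a * deg S a := by
    intro a
    rw [← Finset.sum_filter, Finset.sum_const, smul_eq_mul]
    rfl
  simp only [h1]
  rw [← sum_deg_vset, Finset.mul_sum, Finset.mul_sum]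
  rw [← Finset.sum_subset (Finset.subset_univ (vset S))
    (fun a _ ha => by rw [deg_eq_zero ha, mul_zero, mul_zero])]
  refine Finset.sum_congr rfl fun a ha => ?_
  rw [← mul_assoc, card_mul_cnt ha]

theorem vset_nonempty (hr : 1 ≤ r) {S : Finset (HyperedgeSlot n r)} (hS : S.Nonempty) :
    (vset S).Nonempty := by
  obtain ⟨e, he⟩ := hS
  have : e.1.Nonempty := by
    rw [← Finset.card_pos, e.2]; omega
  obtain ⟨i, hi⟩ := this
  exact ⟨i, mem_vset.mpr ⟨e, he, hi⟩⟩

theorem card_le_pow (S : Finset (HyperedgeSlot n r)) : S.card ≤ (vset S).card ^ r := by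
  have h1 : S.image (fun e => e.1) ⊆ Finset.powersetCard r (vset S) := by
    intro s hs
    obtain ⟨e, he, rfl⟩ := Finset.mem_image.mp hs
    rw [Finset.mem_powersetCard]
    exact ⟨fun i hi => mem_vset.mpr ⟨e, he, hi⟩, e.2⟩
  have h2 := Finset.card_le_card h1
  rw [Finset.card_image_of_injective _ Subtype.val_injective, Finset.card_powersetCard] at h2
  exact h2.trans (Nat.choose_le_pow _ _)

theorem card_div_le (hr : 1 ≤ r) {S : Finset (HyperedgeSlot n r)} (hS : S.Nonempty) {k : ℝ}
    (hk : 0 < k) :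
    (S.card : ℝ) / ((vset S).card : ℝ) ≤ k ^ (r - 1) + (S.card : ℝ) / k := by
  have hv : 0 < ((vset S).card : ℝ) := by
    exact_mod_cast Finset.card_pos.mpr (vset_nonempty hr hS)
  have hs0 : (0 : ℝ) ≤ (S.card : ℝ) := Nat.cast_nonneg _
  rcases le_total ((vset S).card : ℝ) k with h | h
  · have h1 : (S.card : ℝ) ≤ ((vset S).card : ℝ) ^ r := by exact_mod_cast card_le_pow S
    have h2 : (S.card : ℝ) / ((vset S).card : ℝ) ≤ ((vset S).card : ℝ) ^ (r - 1) := by
      rw [div_le_iff₀ hv, ← pow_succ, Nat.sub_add_cancel hr]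
      exact h1
    have h3 : ((vset S).card : ℝ) ^ (r - 1) ≤ k ^ (r - 1) := pow_le_pow_left₀ hv.le h _
    have h4 : 0 ≤ (S.card : ℝ) / k := by positivity
    linarith
  · have h1 : (S.card : ℝ) / ((vset S).card : ℝ) ≤ (S.card : ℝ) / k :=
      div_le_div_of_nonneg_left hs0 hk h
    have h2 : 0 ≤ k ^ (r - 1) := by positivity
    linarith

theorem sum_top_le (hr : 1 ≤ r) {S : Finset (HyperedgeSlot n r)} (hS : S.Nonempty) {k : ℝ}
    (hk : 0 < k) :
    ∑ σ : Equiv.Perm (Fin n), (top (S.image (relabelSlot σ)) : ℝ) ≤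
      (n.factorial : ℝ) * (r * (k ^ (r - 1) + (S.card : ℝ) / k)) := by
  have hv : 0 < ((vset S).card : ℝ) := by
    exact_mod_cast Finset.card_pos.mpr (vset_nonempty hr hS)
  have h1 := card_mul_sum_top S (vset_nonempty hr hS)
  have h2 : ((vset S).card : ℝ) * ∑ σ : Equiv.Perm (Fin n), (top (S.image (relabelSlot σ)) : ℝ) =
      (n.factorial : ℝ) * (r * S.card) := by exact_mod_cast h1
  have h3 : ∑ σ : Equiv.Perm (Fin n), (top (S.image (relabelSlot σ)) : ℝ) =
      (n.factorial : ℝ) * (r * ((S.card : ℝ) / ((vset S).card : ℝ))) := by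
    rw [eq_comm, ← mul_div_assoc, ← mul_div_assoc, div_eq_iff hv.ne', ← h2]
    ring
  rw [h3]
  have h4 := card_div_le hr hS hk
  gcongr

/-! ### Invariance of the Fourier weights -/

theorem chi_image (σ : Equiv.Perm (Fin n)) (S : Finset (HyperedgeSlot n r))
    (x : HyperedgeSlot n r → Bool) :
    chi p (S.image (relabelSlot σ)) x = chi p S (relabel σ x) := by
  unfold chi
  rw [Finset.prod_image (fun a _ b _ h => relabelSlot_injective σ h)]
  rfl

theorem fc_image {F : (HyperedgeSlot n r → Bool) → ℝ}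
    (hF : ∀ (σ : Equiv.Perm (Fin n)) x, F (relabel σ x) = F x) (σ : Equiv.Perm (Fin n))
    (S : Finset (HyperedgeSlot n r)) :
    fc p F (S.image (relabelSlot σ)) = fc p F S := by
  unfold fc
  rw [← Ex_relabel σ (fun x => F x * chi p S x)]
  refine Ex_congr p fun x => ?_
  rw [chi_image, hF]

/-- Reindexing a sum over sets of slots by a vertex permutation. -/
theorem sum_image (σ : Equiv.Perm (Fin n)) (G : Finset (HyperedgeSlot n r) → ℝ) :
    ∑ S : Finset (HyperedgeSlot n r), G (S.image (relabelSlot σ)) =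
      ∑ S : Finset (HyperedgeSlot n r), G S := by
  rw [← Equiv.sum_comp (slotEquiv r σ).finsetCongr G]
  refine Finset.sum_congr rfl fun S _ => ?_
  congr 1
  rw [Equiv.finsetCongr_apply, Finset.map_eq_image]
  rfl

theorem factorial_mul_sum {F : (HyperedgeSlot n r → Bool) → ℝ}
    (hF : ∀ (σ : Equiv.Perm (Fin n)) x, F (relabel σ x) = F x)
    (T : Finset (HyperedgeSlot n r) → ℝ) :
    (n.factorial : ℝ) * ∑ S : Finset (HyperedgeSlot n r), fc p F S ^ 2 * T S =
      ∑ S : Finset (HyperedgeSlot n r), fc p F S ^ 2 *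
        ∑ σ : Equiv.Perm (Fin n), T (S.image (relabelSlot σ)) := by
  simp only [Finset.mul_sum]
  rw [Finset.sum_comm (s := (univ : Finset (Finset (HyperedgeSlot n r))))
    (t := (univ : Finset (Equiv.Perm (Fin n))))]
  have h : ∀ σ : Equiv.Perm (Fin n), ∑ S : Finset (HyperedgeSlot n r),
      fc p F S ^ 2 * T (S.image (relabelSlot σ)) =
      ∑ S : Finset (HyperedgeSlot n r), fc p F S ^ 2 * T S := by
    intro σ
    rw [← sum_image σ (fun S => fc p F S ^ 2 * T S)]
    refine Finset.sum_congr rfl fun S _ => ?_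
    rw [fc_image hF]
  rw [Finset.sum_congr rfl (fun σ _ => h σ)]
  rw [Finset.sum_const, Finset.card_univ, Fintype.card_perm, Fintype.card_fin, nsmul_eq_mul,
    Finset.mul_sum]

/-- The variance and the total degree, in Fourier terms. -/
noncomputable def VarF (p : ℝ) (F : (HyperedgeSlot n r → Bool) → ℝ) : ℝ :=
  ∑ S : Finset (HyperedgeSlot n r), if S.Nonempty then fc p F S ^ 2 else 0

noncomputable def EF (p : ℝ) (F : (HyperedgeSlot n r → Bool) → ℝ) : ℝ :=
  ∑ S : Finset (HyperedgeSlot n r), fc p F S ^ 2 * (S.card : ℝ)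

theorem top_empty : top (∅ : Finset (HyperedgeSlot n r)) = 0 := by
  simp [top, deg]

theorem sum_top_weighted_le (hr : 1 ≤ r) {F : (HyperedgeSlot n r → Bool) → ℝ}
    (hF : ∀ (σ : Equiv.Perm (Fin n)) x, F (relabel σ x) = F x) {k : ℝ} (hk : 0 < k) :
    ∑ S : Finset (HyperedgeSlot n r), fc p F S ^ 2 * (top S : ℝ) ≤
      r * (k ^ (r - 1) * VarF p F + EF p F / k) := by
  have hfac : 0 < (n.factorial : ℝ) := by exact_mod_cast Nat.factorial_pos n
  have h1 := factorial_mul_sum (p := p) hF (fun S => (top S : ℝ))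
  have h2 : ∑ S : Finset (HyperedgeSlot n r), fc p F S ^ 2 *
        ∑ σ : Equiv.Perm (Fin n), (top (S.image (relabelSlot σ)) : ℝ) ≤
      ∑ S : Finset (HyperedgeSlot n r), (n.factorial : ℝ) *
        (r * (k ^ (r - 1) * (if S.Nonempty then fc p F S ^ 2 else 0) +
          fc p F S ^ 2 * (S.card : ℝ) / k)) := by
    refine Finset.sum_le_sum fun S _ => ?_
    by_cases hS : S.Nonempty
    · rw [if_pos hS]
      have := mul_le_mul_of_nonneg_left (sum_top_le hr hS hk) (sq_nonneg (fc p F S))
      refine this.trans (le_of_eq ?_)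
      ring
    · rw [if_neg hS]
      rw [Finset.not_nonempty_iff_eq_empty] at hS
      subst hS
      simp [top_empty]
  rw [← Finset.mul_sum, ← Finset.mul_sum, Finset.sum_add_distrib, ← Finset.mul_sum,
    ← Finset.sum_div] at h2
  rw [← h1] at h2
  exact le_of_mul_le_mul_left h2 hfac

/-- Weighted degree of a vertex. -/
noncomputable def sdeg (p : ℝ) (F : (HyperedgeSlot n r → Bool) → ℝ) (b : Fin n) : ℝ :=
  ∑ S : Finset (HyperedgeSlot n r), fc p F S ^ 2 * (deg S b : ℝ)

theorem sdeg_perm {F : (HyperedgeSlot n r → Bool) → ℝ}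
    (hF : ∀ (σ : Equiv.Perm (Fin n)) x, F (relabel σ x) = F x) (σ : Equiv.Perm (Fin n))
    (b : Fin n) : sdeg p F (σ b) = sdeg p F b := by
  unfold sdeg
  rw [← sum_image σ]
  refine Finset.sum_congr rfl fun S _ => ?_
  rw [fc_image hF, deg_image]

theorem sum_sdeg (F : (HyperedgeSlot n r → Bool) → ℝ) :
    ∑ b : Fin n, sdeg p F b = r * EF p F := by
  unfold sdeg EF
  rw [Finset.sum_comm, Finset.mul_sum]
  refine Finset.sum_congr rfl fun S _ => ?_
  rw [← Finset.mul_sum]
  have : ∑ b : Fin n, (deg S b : ℝ) = r * S.card := by exact_mod_cast sum_deg S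
  rw [this]
  ring

theorem mul_sdeg {F : (HyperedgeSlot n r → Bool) → ℝ}
    (hF : ∀ (σ : Equiv.Perm (Fin n)) x, F (relabel σ x) = F x) (b : Fin n) :
    (n : ℝ) * sdeg p F b = r * EF p F := by
  rw [← sum_sdeg]
  have : ∀ a : Fin n, sdeg p F a = sdeg p F b := by
    intro a
    have := sdeg_perm (p := p) hF (Equiv.swap b a) b
    rwa [Equiv.swap_apply_left] at this
  rw [Finset.sum_congr rfl (fun a _ => this a)]
  simp

end Crest.Agent.R056E
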